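import Vale.Agent.P354I.Iface
import Vale.Agent.P354J.Sl2
import Vale.Agent.P354JP.Main
import Vale.Agent.P354T.Basic

/-!
P354 (helper5): data near the Kerr data give small chart data (NEAR).
-/

open scoped ContDiff
open Set Filter Topology

noncomputable section

namespace Vale.Agent.P354IN

open Vale.Agent.P354H (X3 pdl pd sl tr pdl_tr pdl_zero e)
open Vale.Agent.P354n (R4)
open Vale.Agent.P354C (Ix dfr Constr detP)
open Vale.Agent.P354A (cmp)
open Vale.Agent.P354J (Ud PDy PD SL1 SL2 DSL LIP pb U0 dsl Bd Tm wt Phi Eu CC)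
open Vale.Agent.P354I (Dat IsData IsInit DatB IsKB wd cy r2 kerr rm pm)

/-! ### Calculus -/

theorem pd_ev {f g : X3 → ℝ} {x : X3} (h : f =ᶠ[𝓝 x] g) (j : Fin 3) : pd j f =ᶠ[𝓝 x] pd j g := by
  filter_upwards [h.fderiv (𝕜 := ℝ)] with y hy
  simp only [pd, hy]

theorem pdl_ev (α : List (Fin 3)) : ∀ {f g : X3 → ℝ} {x : X3}, f =ᶠ[𝓝 x] g →
    pdl α f x = pdl α g x := by
  induction α with
  | nil => exact fun h => h.self_of_nhds
  | cons j α ih => exact fun h => ih (pd_ev h j)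

theorem r2_cont : Continuous r2 := by
  unfold r2
  fun_prop

theorem cy_sm : ContDiff ℝ ∞ cy := by
  unfold cy r2
  exact Real.smoothTransition.contDiff.comp (by fun_prop)

theorem cy_zero {z : X3} (h : 16 ≤ r2 z) : cy z = 0 :=
  Real.smoothTransition.zero_of_nonpos (by linarith)

theorem norm_le {z : X3} (h : r2 z ≤ 16) : ‖z.2‖ ≤ 4 := by
  unfold r2 at h
  rw [Prod.norm_def, max_le_iff, Real.norm_eq_abs, Real.norm_eq_abs]
  exact ⟨abs_le_of_sq_le_sq (by nlinarith [sq_nonneg z.2.2]) (by norm_num),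
    abs_le_of_sq_le_sq (by nlinarith [sq_nonneg z.2.1]) (by norm_num)⟩

theorem bd_cy (m : ℕ) : ∃ c, 0 ≤ c ∧ ∀ z : X3, ‖z.2‖ ≤ 4 → Bd m cy z c := by
  obtain ⟨c, h0, hc⟩ := P354JP.bd_compact m
    ((isCompact_singleton (x := (0 : ℝ))).prod (isCompact_closedBall (0 : ℝ × ℝ) 4)) cy_sm
  refine ⟨c, h0, fun z hz α hα => ?_⟩
  have e1 : tr (z.1, 0) cy = cy := by
    funext w
    simp only [tr, cy, r2, Prod.snd_add, add_zero]
  have e2 := congrFun (pdl_tr α (z.1, 0) cy) (0, z.2)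
  rw [e1] at e2
  simp only [tr, Prod.mk_add_mk, zero_add, add_zero] at e2
  rw [show pdl α cy z = _ from e2.symm]
  exact hc (0, z.2) ⟨rfl, mem_closedBall_zero_iff.2 hz⟩ α hα

theorem wt_eq (s : ℝ) (z : X3) : wt s z = (1 + z.1 ^ 2) ^ (-s / 2) := by
  unfold wt
  rw [Real.sqrt_eq_rpow, ← Real.rpow_mul (by positivity)]
  congr 1
  ring

theorem wt_le {s : ℝ} (hs : 0 ≤ s) (z : X3) : wt s z ≤ 1 :=
  Real.rpow_le_one_of_one_le_of_nonpos (P354T.one_le_rho _) (by linarith)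

/-! ### The constraints -/

theorem dsl_ev {u u' : X3 → Ix → ℝ} {z : X3} (h : u =ᶠ[𝓝 z] u') : dsl u z = dsl u' z := by
  have h1 : ∀ i j, pd j (fun y => u y i) z = pd j (fun y => u' y i) z := fun i j =>
    (pd_ev (h.mono fun y hy => by simp only [hy]) j).self_of_nhds
  funext k i
  simp only [dsl, P354J.fd, h1, h.self_of_nhds]

theorem constr (h1 : SL1) (h2 : SL2) (h3 : DSL) {M a r0 s : ℝ} {d : Dat} (hd : IsData M a r0 s d)
    (σ : Bool) (U : R4 → Ix → ℝ) (z : X3) (hU : ∀ i, ContDiffAt ℝ ∞ (fun p => U p i) (0, z))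
    (he : ∀ᶠ z' in 𝓝 z, U (0, z') = Ud d σ z') : Constr (U (0, z)) (dfr U (0, z)) := by
  obtain ⟨hP, hC⟩ := h2 d σ ⟨hd.smooth, hd.pos⟩
  rw [h3 U 0 z fun i => (hU i).differentiableAt (by simp),
    dsl_ev (u := sl U 0) (u' := Ud d σ) he, he.self_of_nhds]
  have hn := P354JP.phi_ne σ z
  exact ((h1 _ _ hP).2 z).2.2.2.2.2.1 ((hC z).2 ⟨hd.hamilton _ hn, hd.momentum _ hn⟩)

/-! ### The Kerr data -/

theorem rm_nonneg {M a : ℝ} (h : |a| < M) : 0 ≤ rm M a := by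
  have hM : 0 ≤ M := (abs_nonneg a).trans h.le
  exact sub_nonneg.2 (Real.sqrt_le_iff.2 ⟨hM, by nlinarith [sq_nonneg a]⟩)

theorem stat {M a r0 : ℝ} (h : 0 < r0) (σ : Bool) (x : ℝ) (y : ℝ × ℝ) :
    pb σ (kerr M a r0).h (x, y) = pb σ (kerr M a r0).h (0, y) ∧
      pb σ (kerr M a r0).K (x, y) = pb σ (kerr M a r0).K (0, y) := by
  constructor
  · ext i j
    rw [(P354JK.ker M a r0 h σ _ i j).1, (P354JK.ker M a r0 h σ _ i j).1]
    rfl
  · ext i j
    rw [(P354JK.ker M a r0 h σ _ i j).2, (P354JK.ker M a r0 h σ _ i j).2]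
    rfl

theorem low (h1 : SL1) (h2 : SL2) {k : Dat} (hk : PDy k)
    (hs : ∀ σ x y, pb σ k.h (x, y) = pb σ k.h (0, y)) :
    ∃ c > 0, ∀ σ (z : X3), ‖z.2‖ ≤ 4 → c ≤ Ud k σ z Ix.O ∧ c ≤ detP (Ud k σ z) := by
  have key : ∀ σ, ∃ c > 0, ∀ z : X3, ‖z.2‖ ≤ 4 → c ≤ Ud k σ z Ix.O ∧ c ≤ detP (Ud k σ z) := by
    intro σ
    obtain ⟨hs1, hp⟩ := h1 _ _ (h2 k σ hk).1
    have hc : Continuous fun z => min (Ud k σ z Ix.O) (detP (Ud k σ z)) :=
      (hs1 _).continuous.min (((hs1 _).continuous.mul (hs1 _).continuous).sub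
        ((hs1 _).continuous.mul (hs1 _).continuous))
    obtain ⟨z0, -, h0⟩ := ((isCompact_singleton (x := (0 : ℝ))).prod
      (isCompact_closedBall (0 : ℝ × ℝ) 4)).exists_isMinOn
      ⟨(0, 0), rfl, Metric.mem_closedBall_self (by norm_num)⟩ hc.continuousOn
    refine ⟨_, lt_min (hp z0).1 (hp z0).2.2.1, fun z hz => ?_⟩
    have h3 : min (Ud k σ z0 Ix.O) (detP (Ud k σ z0)) ≤
        min (Ud k σ (0, z.2) Ix.O) (detP (Ud k σ (0, z.2))) :=
      h0 (a := (0, z.2)) ⟨rfl, mem_closedBall_zero_iff.2 hz⟩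
    have h4 : pb σ k.h z = pb σ k.h (0, z.2) := hs σ z.1 z.2
    have e1 : Ud k σ z Ix.O = Ud k σ (0, z.2) Ix.O := congrArg P354J.Oh h4
    have e2 : detP (Ud k σ z) = detP (Ud k σ (0, z.2)) :=
      congrArg (fun h => P354J.ph11 h * P354J.ph22 h - P354J.ph12 h * P354J.ph12 h) h4
    rw [e1, e2]
    exact le_min_iff.1 h3
  choose c h0 hc using key
  refine ⟨min (c true) (c false), lt_min (h0 _) (h0 _), fun σ z hz => ?_⟩
  have : min (c true) (c false) ≤ c σ := by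
    cases σ
    exacts [min_le_right _ _, min_le_left _ _]
  exact ⟨this.trans (hc σ z hz).1, this.trans (hc σ z hz).2⟩

theorem det_sub {u v : Ix → ℝ} {B ε : ℝ} (hu : ∀ i, |u i| ≤ B) (hv : ∀ i, |v i| ≤ B)
    (h : ∀ i, |u i - v i| ≤ ε) : |detP u - detP v| ≤ 4 * B * ε := by
  have hB : 0 ≤ B := (abs_nonneg _).trans (hu Ix.O)
  have k : ∀ i j, |u i * u j - v i * v j| ≤ 2 * B * ε := by
    intro i j
    rw [show u i * u j - v i * v j = u i * (u j - v j) + v j * (u i - v i) by ring]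
    refine (abs_add_le _ _).trans ?_
    rw [abs_mul, abs_mul]
    linarith [mul_le_mul (hu i) (h j) (abs_nonneg _) hB, mul_le_mul (hv j) (h i) (abs_nonneg _) hB]
  rw [show detP u - detP v = (u Ix.P11 * u Ix.P22 - v Ix.P11 * v Ix.P22) -
    (u Ix.P12 * u Ix.P21 - v Ix.P12 * v Ix.P21) by unfold detP; ring]
  linarith [abs_sub _ _ |>.trans (add_le_add (k Ix.P11 Ix.P22) (k Ix.P12 Ix.P21))]

/-! ### The statement -/

theorem near' (h1 : SL1) (h2 : SL2) (h3 : DSL) (h4 : LIP) : P354I.NEAR := by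
  intro M a s ρ C K m _ ha hs hρ hK ε hε
  have hr : 0 < rm M a + ρ := by linarith [rm_nonneg ha]
  set k := kerr M a (rm M a + ρ) with hk
  have hkP : PDy k := ⟨(hK.data s).smooth, (hK.data s).pos⟩
  have hs0 : 0 ≤ s := by linarith
  obtain ⟨B, δ, hB, hδ, hL⟩ := h4 k m 4 hkP (stat hr)
  obtain ⟨c, hc, hlow⟩ := low h1 h2 hkP fun σ x y => (stat hr σ x y).1
  obtain ⟨c1, hc1, hcy⟩ := bd_cy m
  obtain ⟨η, hη, hη1, hη2, hη3⟩ : ∃ η > 0, η ≤ δ ∧ (1 + 4 * B) * (B * η) ≤ c / 2 ∧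
      2 ^ m * c1 * (B * η) ≤ ε := by
    have t1 : ∀ᶠ η in 𝓝[>] (0 : ℝ), η ≤ δ :=
      (eventually_le_nhds hδ).filter_mono nhdsWithin_le_nhds
    have t2 : ∀ᶠ η in 𝓝[>] (0 : ℝ), (1 + 4 * B) * (B * η) ≤ c / 2 :=
      (((show Continuous fun η : ℝ => (1 + 4 * B) * (B * η) by fun_prop).continuousAt.eventually_lt
        continuousAt_const (by simpa using hc)).mono fun _ h => h.le).filter_mono nhdsWithin_le_nhds
    have t3 : ∀ᶠ η in 𝓝[>] (0 : ℝ), 2 ^ m * c1 * (B * η) ≤ ε :=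
      (((show Continuous fun η : ℝ => 2 ^ m * c1 * (B * η) by fun_prop).continuousAt.eventually_lt
        continuousAt_const (by simpa using hε)).mono fun _ h => h.le).filter_mono nhdsWithin_le_nhds
    obtain ⟨η, ⟨⟨a1, a2⟩, a3⟩, a4⟩ := (((t1.and t2).and t3).and self_mem_nhdsWithin).exists
    exact ⟨η, a4, a1, a2, a3⟩
  refine ⟨m + 2, η, hη, fun d hd hp σ => ?_⟩
  have hdP : PDy d := ⟨hd.smooth, hd.pos⟩
  have hT := hL s η d k hs0 hη.le hdP hkP (hp.le.trans (ENNReal.ofReal_le_ofReal hη1))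
    (by rw [P354T.pm_self]; exact zero_le) hp.le σ
  obtain ⟨sd, pd'⟩ := h1 _ _ (h2 d σ hdP).1
  obtain ⟨sk, -⟩ := h1 _ _ (h2 k σ hkP).1
  have hBη : 0 ≤ B * η := mul_nonneg hB hη.le
  have hw : ∀ i, cmp (wd (K σ) (Ud d σ)) i = fun z => cy z * (Ud d σ z i - Ud k σ z i) := by
    intro i
    funext z
    show cy z * _ = _
    rcases lt_or_ge (r2 z) 16 with h | h
    · rw [hK.init σ z h]
    · rw [cy_zero h, zero_mul, zero_mul]
  refine ⟨⟨sd, fun z => ⟨(pd' z).1, (pd' z).2.2.1.ne'⟩, ⟨c / 2, half_pos hc, fun z hz => ?_⟩,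
    constr h1 h2 h3 hd σ⟩, fun i => ?_, fun z hz => ?_, fun i α hα z => ?_⟩
  · have hz' := norm_le hz
    have q : ∀ i, |Ud d σ z i - Ud k σ z i| ≤ B * η := fun i =>
      (hT z hz' i).bd.zero.trans (mul_le_of_le_one_right hBη (wt_le hs0 z))
    have q1 := abs_le.1 (q Ix.O)
    have q2 := abs_le.1 (det_sub (fun i => (hT z hz' i).bf.zero) (fun i => (hT z hz' i).bg.zero) q)
    have q3 := hlow σ z hz'
    have q4 := mul_nonneg hB hBη
    exact ⟨by linarith, le_trans (by linarith) (le_abs_self _)⟩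
  · rw [hw]
    exact cy_sm.mul ((sd i).sub (sk i))
  · funext i
    show cy z * _ = 0
    rw [cy_zero hz, zero_mul]
  · rw [hw, ← wt_eq]
    rcases le_or_gt (r2 z) 16 with h | h
    · have hz' := norm_le h
      refine (P354JP.bd_mul cy_sm ((sd i).sub (sk i)) (hcy z hz') (hT z hz' i).bd α hα).trans ?_
      rw [← mul_assoc]
      exact mul_le_mul_of_nonneg_right hη3 (P354JP.wt_pos s z).le
    · have : (fun z => cy z * (Ud d σ z i - Ud k σ z i)) =ᶠ[𝓝 z] 0 := by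
        filter_upwards [r2_cont.continuousAt.eventually_const_lt h] with y hy
        rw [cy_zero hy.le, zero_mul]
        rfl
      rw [pdl_ev α this, pdl_zero]
      simpa using mul_nonneg hε.le (P354JP.wt_pos s z).le

theorem near (h2 : SL2) (h4 : LIP) : P354I.NEAR := near' P354J.sl1 h2 P354J.dslThm h4

end Vale.Agent.P354IN
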