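import Vale.Agent.P354SG.IDefs

/-!
Jets of families with hidden constants, and the cut off functions of the initial values.
-/

open scoped ContDiff Topology Nat
open Set Filter

noncomputable section

namespace Vale.Agent.P354IN

open Vale.Agent.P354YQ (SA JB JD)

variable {J X F G : Type} [NormedAddCommGroup X] [NormedSpace ℝ X] [NormedAddCommGroup F]
  [NormedSpace ℝ F] [NormedAddCommGroup G] [NormedSpace ℝ G]

/-- The jets of order at most k (with or without the values) are O(μ). -/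
def OB (k : ℕ) (x : J → X) (f : J → X → F) (μ : J → ℝ) : Prop :=
  (∀ j, 0 ≤ μ j) ∧ ∃ C, 0 ≤ C ∧ ∀ j, JB k (f j) (x j) (C * μ j)
def OD (k : ℕ) (x : J → X) (f : J → X → F) (μ : J → ℝ) : Prop :=
  (∀ j, 0 ≤ μ j) ∧ ∃ C, 0 ≤ C ∧ ∀ j, JD k (f j) (x j) (C * μ j)

variable {k k' : ℕ} {x : J → X} {f f' : J → X → F} {g : J → X → G} {μ ν : J → ℝ}

theorem OB.of {C : ℝ} (hμ : ∀ j, 0 ≤ μ j) (h : ∀ j, JB k (f j) (x j) (C * μ j)) : OB k x f μ :=
  ⟨hμ, |C|, abs_nonneg _, fun j => (h j).mono (mul_le_mul_of_nonneg_right (le_abs_self C) (hμ j))⟩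

theorem OD.of {C : ℝ} (hμ : ∀ j, 0 ≤ μ j) (h : ∀ j, JD k (f j) (x j) (C * μ j)) : OD k x f μ :=
  ⟨hμ, |C|, abs_nonneg _, fun j => (h j).mono (mul_le_mul_of_nonneg_right (le_abs_self C) (hμ j))⟩

theorem OB.of1 {C : ℝ} (h : ∀ j, JB k (f j) (x j) C) : OB k x f 1 :=
  .of (C := C) (fun _ => zero_le_one) fun j => (h j).mono (mul_one C).ge

theorem OD.of1 {C : ℝ} (h : ∀ j, JD k (f j) (x j) C) : OD k x f 1 :=
  .of (C := C) (fun _ => zero_le_one) fun j => (h j).mono (mul_one C).ge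

theorem OB.od (h : OB k x f μ) : OD k x f μ := ⟨h.1, h.2.imp fun _ c => ⟨c.1, fun j => (c.2 j).jd⟩⟩

theorem OB.ord (h : OB k x f μ) (e : k' ≤ k) : OB k' x f μ :=
  ⟨h.1, h.2.imp fun _ c => ⟨c.1, fun j => (c.2 j).ord e⟩⟩

theorem OD.ord (h : OD k x f μ) (e : k' ≤ k) : OD k' x f μ :=
  ⟨h.1, h.2.imp fun _ c => ⟨c.1, fun j => (c.2 j).ord e⟩⟩

theorem OB.congr (h : OB k x f μ) (e : ∀ j, f' j =ᶠ[𝓝 (x j)] f j) : OB k x f' μ :=
  ⟨h.1, h.2.imp fun _ c => ⟨c.1, fun j => (c.2 j).congr (e j)⟩⟩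

theorem OD.congr (h : OD k x f μ) (e : ∀ j, f' j =ᶠ[𝓝 (x j)] f j) : OD k x f' μ :=
  ⟨h.1, h.2.imp fun _ c => ⟨c.1, fun j => (c.2 j).congr (e j)⟩⟩

theorem OB.congr' (h : OB k x f μ) (e : ∀ j y, f' j y = f j y) : OB k x f' μ :=
  h.congr fun j => .of_forall (e j)

theorem OD.congr' (h : OD k x f μ) (e : ∀ j y, f' j y = f j y) : OD k x f' μ :=
  h.congr fun j => .of_forall (e j)

theorem OD.pt {x' : J → X} (h : OD k x f μ) (e : ∀ j, x' j = x j) : OD k x' f μ :=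
  (funext e : x' = x) ▸ h

theorem OB.pt {x' : J → X} (h : OB k x f μ) (e : ∀ j, x' j = x j) : OB k x' f μ :=
  (funext e : x' = x) ▸ h

theorem OB.wt (h : OB k x f μ) (c : ℝ) (hν : ∀ j, 0 ≤ ν j) (e : ∀ j, μ j ≤ c * ν j) :
    OB k x f ν :=
  let ⟨C, c0, hC⟩ := h.2
  .of (C := C * c) hν fun j => (hC j).mono (mul_assoc C c _ ▸ mul_le_mul_of_nonneg_left (e j) c0)

theorem OD.wt (h : OD k x f μ) (c : ℝ) (hν : ∀ j, 0 ≤ ν j) (e : ∀ j, μ j ≤ c * ν j) :
    OD k x f ν :=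
  let ⟨C, c0, hC⟩ := h.2
  .of (C := C * c) hν fun j => (hC j).mono (mul_assoc C c _ ▸ mul_le_mul_of_nonneg_left (e j) c0)

theorem OD.ob (h : OD k x f μ) (c : ℝ) (e : ∀ j, ‖f j (x j)‖ ≤ c * μ j) : OB k x f μ :=
  let ⟨C, _, hC⟩ := h.2
  .of (C := max C c) h.1 fun j =>
    ((hC j).mono (mul_le_mul_of_nonneg_right (le_max_left _ _) (h.1 j))).jb
      ((e j).trans (mul_le_mul_of_nonneg_right (le_max_right _ _) (h.1 j)))

theorem OD.cen (h : OD k x f μ) : OB k x (fun j y => f j y - f j (x j)) μ :=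
  ⟨h.1, h.2.imp fun _ c => ⟨c.1, fun j => (c.2 j).sub_const (mul_nonneg c.1 (h.1 j))⟩⟩

theorem OB.add (h : OB k x f μ) (h' : OB k x f' μ) : OB k x (fun j y => f j y + f' j y) μ :=
  let ⟨C, _, hC⟩ := h.2
  let ⟨D, _, hD⟩ := h'.2
  .of (C := C + D) h.1 fun j => add_mul C D _ ▸ (hC j).add (hD j)

theorem OB.sub (h : OB k x f μ) (h' : OB k x f' μ) : OB k x (fun j y => f j y - f' j y) μ :=
  let ⟨C, _, hC⟩ := h.2
  let ⟨D, _, hD⟩ := h'.2
  .of (C := C + D) h.1 fun j => add_mul C D _ ▸ (hC j).sub (hD j)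

theorem OD.add (h : OD k x f μ) (h' : OD k x f' μ) : OD k x (fun j y => f j y + f' j y) μ :=
  let ⟨C, _, hC⟩ := h.2
  let ⟨D, _, hD⟩ := h'.2
  .of (C := C + D) h.1 fun j => add_mul C D _ ▸ (hC j).add (hD j)

theorem OD.sub (h : OD k x f μ) (h' : OD k x f' μ) : OD k x (fun j y => f j y - f' j y) μ :=
  let ⟨C, _, hC⟩ := h.2
  let ⟨D, _, hD⟩ := h'.2
  .of (C := C + D) h.1 fun j => add_mul C D _ ▸ (hC j).sub (hD j)

theorem OD.prod (h : OD k x f μ) (h' : OD k x g μ) : OD k x (fun j y => (f j y, g j y)) μ :=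
  let ⟨C, _, hC⟩ := h.2
  let ⟨D, _, hD⟩ := h'.2
  .of (C := max C D) h.1 fun j =>
    ((hC j).mono (mul_le_mul_of_nonneg_right (le_max_left _ _) (h.1 j))).prod
      ((hD j).mono (mul_le_mul_of_nonneg_right (le_max_right _ _) (h.1 j)))

theorem OD.const (c : J → F) (hμ : ∀ j, 0 ≤ μ j) : OD k x (fun j _ => c j) μ :=
  .of (C := 0) hμ fun j => (JD.const (c j)).mono (zero_mul _).ge

theorem OB.cst (c : F) : OB k x (fun _ _ => c) 1 := .of1 fun _ => JB.const c

theorem OD.lin (L : X →L[ℝ] F) : OD k x (fun _ y => L y) 1 := .of1 fun _ => JD.lin L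

theorem OB.clm (L : F →L[ℝ] G) (h : OB k x f μ) : OB k x (fun j y => L (f j y)) μ :=
  let ⟨C, _, hC⟩ := h.2
  .of (C := ‖L‖ * C) h.1 fun j => mul_assoc ‖L‖ C _ ▸ (hC j).clm L

theorem OB.app (v : F) {A : J → X → F →L[ℝ] G} (h : OB k x A μ) : OB k x (fun j y => A j y v) μ :=
  h.clm (ContinuousLinearMap.apply ℝ G v)

theorem OB.smul {a : J → X → ℝ} (h : OB k x a μ) (h' : OB k x f ν) :
    OB k x (fun j y => a j y • f j y) (μ * ν) :=
  let ⟨C, _, hC⟩ := h.2
  let ⟨D, _, hD⟩ := h'.2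
  .of (C := 2 ^ k * C * D) (fun j => mul_nonneg (h.1 j) (h'.1 j)) fun j =>
    ((hC j).smul (hD j)).mono (le_of_eq (by simp only [Pi.mul_apply]; ring))

theorem OB.mul1 {a b : J → X → ℝ} (h : OB k x a 1) (h' : OB k x b ν) :
    OB k x (fun j y => a j y * b j y) ν := by simpa using h.smul h'

/-- Multiplication by constants which depend on j. -/
theorem OD.cs (c : J → ℝ) (hc : ∀ j, 0 ≤ c j) (h : OD k x f μ) :
    OD k x (fun j y => c j • f j y) (c * μ) :=
  let ⟨C, c0, hC⟩ := h.2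
  .of (C := C) (fun j => mul_nonneg (hc j) (h.1 j)) fun j =>
    ((hC j).clm (c j • ContinuousLinearMap.id ℝ F)).mono (by
      refine (mul_le_mul_of_nonneg_right (show _ ≤ c j from ?_) (mul_nonneg c0 (h.1 j))).trans_eq
        (by simp only [Pi.mul_apply]; ring)
      rw [norm_smul, Real.norm_of_nonneg (hc j)]
      exact mul_le_of_le_one_right (hc j) ContinuousLinearMap.norm_id_le)

theorem OB.cs (c : J → ℝ) (hc : ∀ j, 0 ≤ c j) (h : OB k x f μ) :
    OB k x (fun j y => c j • f j y) (c * μ) :=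
  ((OD.const c hc).ob 1 fun j => by rw [Real.norm_of_nonneg (hc j), one_mul]).smul h

theorem OD.fd (h : OD (k + 1) x f μ) : OB k x (fun j => fderiv ℝ (f j)) μ :=
  ⟨h.1, h.2.imp fun _ c => ⟨c.1, fun j => (c.2 j).fderiv⟩⟩

theorem OB.comp {u : J → F → G} (hu : OB k (fun j => f j (x j)) u μ) (h : OD k x f 1) :
    OB k x (fun j y => u j (f j y)) μ :=
  let ⟨C, _, hC⟩ := hu.2
  let ⟨D, d0, hD⟩ := h.2
  .of (C := k ! * C * (D + 1) ^ k) hu.1 fun j => ((hC j).comp (D := D + 1)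
    ((hD j).mono (by simp)) (by linarith)).mono (le_of_eq (by ring))

theorem OD.comp {u : J → F → G} (hu : OD k (fun j => f j (x j)) u μ) (h : OD k x f 1) :
    OD k x (fun j y => u j (f j y)) μ :=
  let ⟨C, c0, hC⟩ := (hu.cen.comp h).2
  ⟨hu.1, C, c0, fun j => JD.of_sub _ (hC j).jd⟩

/-- Composition with a slowly varying map. -/
theorem OD.slow {u : J → F → G} (hu : OD (k + 1) (fun j => f j (x j)) u 1) (h : OD k x f 1)
    (h' : OD (k + 1) x f ν) : OD (k + 1) x (fun j y => u j (f j y)) ν := by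
  obtain ⟨C, -, hC⟩ := (hu.fd.comp h).2
  obtain ⟨D, -, hD⟩ := h'.fd.2
  obtain ⟨_, -, s1⟩ := hu.2
  obtain ⟨_, -, s2⟩ := h'.2
  refine .of (C := 2 ^ k * C * D) h'.1 fun j => JD.of_fderiv ((s1 j).sm.comp (s2 j).sm) ?_
  exact (((hC j).ccomp (hD j)).congr (P354YQ.fderiv_ev (s1 j).sm (s2 j).sm)).mono
    (le_of_eq (by simp only [Pi.one_apply]; ring))

/-- The product rule for functions with small derivatives. -/
theorem OD.mul {a b : J → X → ℝ} {β : J → ℝ} (h : OD k x a μ) (h0 : ∀ j, |a j (x j)| ≤ 1)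
    (h' : OD k x b ν) (hb : OB k x b β) (e : ∀ j, μ j * β j ≤ ν j) :
    OD k x (fun j y => a j y * b j y) ν := by
  have a1 := (h.cen.smul hb).wt 1 h'.1 fun j => (one_mul (ν j)).symm ▸ e j
  have a2 := (((OD.const (fun j => a j (x j)) fun _ => zero_le_one).ob (μ := 1) 1 fun j => by
    simpa using h0 j).mul1 h'.cen)
  obtain ⟨C, c0, hC⟩ := (a1.add a2).2
  exact ⟨h'.1, C, c0, fun j => JD.of_sub (a j (x j) * b j (x j)) ((hC j).jd.congr
    (.of_forall fun y => by simp only [smul_eq_mul]; ring))⟩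

theorem OB.bd (h : OB k x f 1) : ∃ C, 1 ≤ C ∧ ∀ j, JB k (f j) (x j) C :=
  let ⟨C, c0, hC⟩ := h.2
  ⟨C + 1, by linarith, fun j => (hC j).mono (by simp)⟩

theorem OD.bd (h : OD k x f 1) : ∃ C, 1 ≤ C ∧ ∀ j, JD k (f j) (x j) C :=
  let ⟨C, c0, hC⟩ := h.2
  ⟨C + 1, by linarith, fun j => (hC j).mono (by simp)⟩

/-! ### The cut off functions -/

/-- Functions which are affine outside of an interval have bounded derivatives. -/
theorem ex_jd {f : ℝ → ℝ} (hf : ContDiff ℝ ∞ f) {a b c : ℝ} (h0 : ∀ t < -1, f t = a)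
    (h1 : ∀ t > 1, f t = b + c * t) (k : ℕ) : ∃ B, ∀ t, JD k f t B := by
  obtain ⟨B, b0, hB⟩ := P354YI.ex_jb k (isCompact_Icc (a := (-1 : ℝ)) (b := 1))
    fun t _ => hf.contDiffAt
  refine ⟨B + (0 + ‖c • ContinuousLinearMap.id ℝ ℝ‖), fun t => ?_⟩
  rcases lt_or_ge t (-1) with j | j
  · exact ((JD.const a).congr ((eventually_lt_nhds j).mono h0)).mono (by positivity)
  rcases lt_or_ge 1 t with i | i
  · exact (((JD.const b).add (JD.lin (c • ContinuousLinearMap.id ℝ ℝ))).congr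
      ((eventually_gt_nhds i).mono h1)).mono (by linarith)
  · exact ⟨SA.of hf, fun n _ m => (hB t ⟨j, i⟩ n m).trans (le_add_of_nonneg_right (by positivity))⟩

theorem st_jd (k : ℕ) : ∃ B, ∀ t, JD k Real.smoothTransition t B :=
  ex_jd Real.smoothTransition.contDiff (a := 0) (b := 1) (c := 0)
    (fun t h => Real.smoothTransition.zero_of_nonpos (by linarith))
    (fun t h => by rw [Real.smoothTransition.one_of_one_le h.le]; ring) k

theorem ex_psi : ∃ ψ : ℝ → ℝ, ContDiff ℝ ∞ ψ ∧ (∀ t ≤ -1, ψ t = 0) ∧ (∀ t ≥ 1, ψ t = t) ∧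
    ∀ t, deriv ψ t ∈ Icc (0 : ℝ) 1 ∧ 0 ≤ ψ t ∧ t ≤ ψ t ∧ (t ≤ 1 → ψ t ≤ 1) ∧
      (-1 ≤ t → ψ t ≤ t + 1) := by
  have c := Real.smoothTransition.continuous
  obtain ⟨I, I0, d⟩ : ∃ I : ℝ → ℝ, I 0 = 0 ∧ ∀ t, HasDerivAt I (Real.smoothTransition t) t :=
    ⟨fun t => ∫ s in (0 : ℝ)..t, Real.smoothTransition s, by simp,
      fun t => (c.integral_hasStrictDerivAt 0 t).hasDerivAt⟩
  have df : Differentiable ℝ I := fun t => (d t).differentiableAt
  have m1 : Monotone I := monotone_of_deriv_nonneg df fun t =>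
    (d t).deriv ▸ Real.smoothTransition.nonneg t
  have m2 : Monotone fun t => t - I t := monotone_of_deriv_nonneg (differentiable_id.sub df)
    fun t => ((hasDerivAt_id t).sub (d t)).deriv ▸ sub_nonneg.2 (Real.smoothTransition.le_one t)
  have z0 : ∀ t ≤ 0, I t = 0 := fun t ht => I0 ▸ (constant_of_has_deriv_right_zero
    df.continuous.continuousOn (fun s hs => by
      simpa [Real.smoothTransition.zero_of_nonpos hs.2.le] using (d s).hasDerivWithinAt) 0
    ⟨ht, le_rfl⟩).symm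
  have z1 : ∀ t ≥ 1, t - I t = 1 - I 1 := fun t ht => constant_of_has_deriv_right_zero
    (f := fun t => t - I t) (continuous_id.sub df.continuous).continuousOn (fun s hs => by
      simpa [Real.smoothTransition.one_of_one_le hs.1] using
        ((hasDerivAt_id' s).fun_sub (d s)).hasDerivWithinAt) t ⟨ht, le_rfl⟩
  have c0 : 0 ≤ I 1 := I0 ▸ m1 zero_le_one
  have c1 : I 1 ≤ 1 := by linarith [m2 zero_le_one]
  have e0 : ∀ t ≤ -1, I (t + (1 - I 1)) = 0 := fun t ht => z0 _ (by linarith)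
  have e1 : ∀ t ≥ 1, I (t + (1 - I 1)) = t := fun t ht => by
    linarith [z1 (t + (1 - I 1)) (by linarith)]
  refine ⟨fun t => I (t + (1 - I 1)), (contDiff_infty_iff_deriv.2 ⟨df, by
    rw [show deriv I = _ from funext fun t => (d t).deriv]
    exact Real.smoothTransition.contDiff⟩).comp (contDiff_id.add contDiff_const), e0, e1,
    fun t => ⟨?_, ?_, ?_, fun h => ?_, fun h => ?_⟩⟩
  · rw [((d _).comp_add_const t _).deriv]
    exact ⟨Real.smoothTransition.nonneg _, Real.smoothTransition.le_one _⟩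
  · exact (e0 _ (min_le_left (-1) t)).ge.trans (m1 (by linarith [min_le_right (-1) t]))
  · linarith [e1 _ (le_max_left 1 t), m2 (show t + (1 - I 1) ≤ max 1 t + (1 - I 1) by
      linarith [le_max_right 1 t])]
  · exact (m1 (by linarith)).trans (e1 1 le_rfl).le
  · linarith [e0 (-1) le_rfl, m2 (show -1 + (1 - I 1) ≤ t + (1 - I 1) by linarith)]

/-- The starting time of the characteristics. -/
structure Be (c w T : ℝ) (be : ℝ → ℝ) : Prop where
  sm : ContDiff ℝ ∞ be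
  rng : ∀ u ∈ Icc (-2 * T - 5 * w) (4 * w), be u ∈ Icc (-4 * w) (5 * w)
  lo : ∀ u ≤ -2, be u ≤ max (-3 * w) (-u - 2 * T) ∧ -u - 2 * T ≤ be u
  hi : ∀ u ≥ -1, min (4 * w) (-u) ≤ be u ∧ be u ≤ -u
  bot : ∀ u ≤ -2 * T + 3 * w, be u = -u - 2 * T
  top : ∀ u ≥ -4 * w, be u = -u
  a : ∀ u ≤ -2 * T + 5 * w, deriv be u ∈ Icc (-1 : ℝ) 0 ∧ -w ≤ -u - 2 * T - be u
  b : ∀ u, -2 * T + 5 * w < u → u < -2 → be =ᶠ[𝓝 u] fun _ => -4 * w
  d : ∀ u ≥ -2, (u < -6 * w → |deriv be u| ≤ w * c) ∧ (-6 * w ≤ u → |deriv be u| ≤ 1)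

theorem ex_be : ∃ c ≥ 0, ∀ w ∈ Ioc (0 : ℝ) (1 / 10), ∃ be : ℝ → ℝ → ℝ,
    (∀ k, ∃ B, ∀ T u, JD k (be T) u B) ∧ ∀ T ≥ 2, Be c w T (be T) := by
  obtain ⟨ψ, sψ, p0, p1, p⟩ := ex_psi
  obtain ⟨c, hc⟩ := st_jd 1
  have hc' : ∀ t, |deriv Real.smoothTransition t| ≤ c := fun t => by
    simpa [← norm_deriv_eq_norm_fderiv] using (hc t).le 1 le_rfl le_rfl
  have s0 := fun t h => Real.smoothTransition.zero_of_nonpos (x := t) h
  have s1 := fun t h => Real.smoothTransition.one_of_one_le (x := t) h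
  have dψ := fun t => (sψ.differentiable (by simp) t).hasDerivAt
  have ds := fun t => ((Real.smoothTransition.contDiff (n := ⊤)).differentiable (by simp) t).hasDerivAt
  refine ⟨9 * c, by linarith [abs_nonneg (deriv Real.smoothTransition 0), hc' 0], fun w hw =>
    ⟨fun T u => -4 * w + w * ψ ((-u - 2 * T + 4 * w) / w) + 9 * w * Real.smoothTransition (u + 2) -
      w * ψ ((u + 5 * w) / w), fun k => ?_, fun T hT => ?_⟩⟩
  · obtain ⟨B, hB⟩ := ex_jd sψ (a := 0) (b := 0) (c := 1) (fun t h => p0 t h.le)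
      (fun t h => by rw [p1 t h.le]; ring) k
    obtain ⟨B', hB'⟩ := st_jd k
    have af : ∀ (α : ℝ) (β : ℝ × ℝ → ℝ), OD k Prod.snd (fun j u => β j + α * u) 1 := fun α β =>
      (OD.const β fun _ => zero_le_one).add (OD.lin (α • ContinuousLinearMap.id ℝ ℝ))
    have sc : ∀ (α : ℝ) {f : ℝ × ℝ → ℝ → ℝ}, 0 ≤ α → OD k Prod.snd f 1 →
        OD k Prod.snd (fun j u => α * f j u) 1 := fun α f h0 h =>
      (h.cs (fun _ => α) fun _ => h0).wt α (fun _ => zero_le_one) fun _ => le_rfl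
    obtain ⟨K, -, hK⟩ := ((((OD.const (fun _ => -4 * w) fun _ => zero_le_one).add
      (sc w hw.1.le ((OD.of1 fun _ => hB _).comp (af (-w⁻¹) fun j => (-2 * j.1 + 4 * w) / w)))).add
      (sc (9 * w) (by linarith [hw.1]) ((OD.of1 fun _ => hB' _).comp (af 1 fun _ => 2)))).sub
      (sc w hw.1.le ((OD.of1 fun _ => hB _).comp (af w⁻¹ fun _ => 5 * w / w)))).bd
    refine ⟨K, fun T u => (hK (T, u)).congr (.of_forall fun u => ?_)⟩
    simp only
    congr 4 <;> ring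
  beta_reduce
  obtain ⟨w0, w1⟩ := hw
  have q : ∀ x, w * (x / w) = x := fun x => mul_div_cancel₀ x w0.ne'
  have l0 : ∀ x, x ≤ -w → ψ (x / w) = 0 := fun x h => p0 _ (by rwa [div_le_iff₀ w0, neg_one_mul])
  have l1 : ∀ x, w ≤ x → w * ψ (x / w) = x := fun x h => by
    rw [p1 _ ((one_le_div w0).2 h), q]
  have l2 : ∀ x, 0 ≤ w * ψ (x / w) ∧ x ≤ w * ψ (x / w) ∧ (x ≤ w → w * ψ (x / w) ≤ w) ∧
      (-w ≤ x → w * ψ (x / w) ≤ x + w) := fun x => by
    obtain ⟨-, a1, a2, a3, a4⟩ := p (x / w)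
    refine ⟨by positivity, by nlinarith [q x], fun h => ?_, fun h => ?_⟩
    · nlinarith [a3 ((div_le_one w0).2 h)]
    · nlinarith [a4 (by rwa [le_div_iff₀ w0, neg_one_mul]), q x]
  have l3 : ∀ x, x ≤ 9 * w → w * ψ (x / w) ≤ 9 * w := fun x h => by
    rcases le_total x w with j | j
    exacts [by linarith [(l2 x).2.2.1 j], by linarith [l1 x j]]
  have dd : ∀ u, deriv (fun u => -4 * w + w * ψ ((-u - 2 * T + 4 * w) / w) +
      9 * w * Real.smoothTransition (u + 2) - w * ψ ((u + 5 * w) / w)) u =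
      -deriv ψ ((-u - 2 * T + 4 * w) / w) + 9 * w * deriv Real.smoothTransition (u + 2) -
        deriv ψ ((u + 5 * w) / w) := fun u => by
    refine ((((((dψ _).comp u (((((hasDerivAt_id u).neg.sub_const (2 * T)).add_const
      (4 * w)).div_const w))).const_mul w).const_add (-4 * w)).add (((ds _).comp_add_const u
      2).const_mul (9 * w))).sub (((dψ _).comp u (((hasDerivAt_id u).add_const (5 * w)).div_const
      w)).const_mul w)).deriv.trans ?_
    field_simp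
    rfl
  have dz : ∀ x, x < -w → deriv ψ (x / w) = 0 := fun x h => by
    rw [EventuallyEq.deriv_eq (f := fun _ => 0) ((eventually_lt_nhds (show x / w < -1 by
      rwa [div_lt_iff₀ w0, neg_one_mul])).mono fun t ht => p0 t ht.le), deriv_const]
  refine ⟨by fun_prop, fun u hu => ?_, fun u hu => ?_, fun u hu => ?_, fun u hu => ?_,
    fun u hu => ?_, fun u hu => ⟨?_, ?_⟩, fun u h1 h2 => ?_, fun u hu => ⟨fun h => ?_, fun h => ?_⟩⟩
  · have a1 := mul_le_mul_of_nonneg_left (Real.smoothTransition.le_one (u + 2)) w0.le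
    have a2 := mul_nonneg w0.le (Real.smoothTransition.nonneg (u + 2))
    rcases le_total u (-2) with j | j
    · rw [s0 (_ + 2) (by linarith), l0 (u + 5 * w) (by linarith)]
      constructor <;> linarith [l3 (-u - 2 * T + 4 * w) (by linarith [hu.1]),
        (l2 (-u - 2 * T + 4 * w)).1]
    rw [l0 (-u - 2 * T + 4 * w) (by linarith)]
    rcases le_total u (-1) with i | i
    · rw [l0 (u + 5 * w) (by linarith)]
      constructor <;> linarith
    · rw [s1 (_ + 2) (by linarith)]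
      constructor <;> linarith [l3 (u + 5 * w) (by linarith [hu.2]), (l2 (u + 5 * w)).1]
  · rw [s0 (_ + 2) (by linarith), l0 (u + 5 * w) (by linarith)]
    refine ⟨?_, by linarith [(l2 (-u - 2 * T + 4 * w)).2.1]⟩
    rcases le_total (-u - 2 * T + 4 * w) w with j | j
    · exact le_max_of_le_left (by linarith [(l2 _).2.2.1 j])
    · exact le_max_of_le_right (by linarith [l1 _ j])
  · rw [s1 (_ + 2) (by linarith), l0 (-u - 2 * T + 4 * w) (by linarith)]
    refine ⟨?_, by linarith [(l2 (u + 5 * w)).2.1]⟩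
    rcases le_total (u + 5 * w) w with j | j
    · exact min_le_of_left_le (by linarith [(l2 _).2.2.1 j])
    · exact min_le_of_right_le (by linarith [l1 _ j])
  · rw [s0 (_ + 2) (by linarith), l0 (u + 5 * w) (by linarith), l1 _ (by linarith)]
    ring
  · rw [s1 (_ + 2) (by linarith), l0 (-u - 2 * T + 4 * w) (by linarith), l1 (u + 5 * w) (by linarith)]
    ring
  · rw [dd, dz (u + 5 * w) (by linarith), EventuallyEq.deriv_eq (f := fun _ => 0)
      ((eventually_lt_nhds (show u + 2 < 0 by linarith)).mono fun t ht => s0 t ht.le), deriv_const]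
    constructor <;> linarith [(p ((-u - 2 * T + 4 * w) / w)).1.1, (p ((-u - 2 * T + 4 * w) / w)).1.2]
  · rw [s0 (_ + 2) (by linarith), l0 (u + 5 * w) (by linarith)]
    linarith [(l2 (-u - 2 * T + 4 * w)).2.2.2 (by linarith)]
  · filter_upwards [Ioo_mem_nhds h1 h2] with t ht
    rw [s0 (_ + 2) (by linarith [ht.2]), l0 (t + 5 * w) (by linarith [ht.2]), l0 _ (by linarith [ht.1])]
    ring
  · rw [dd, dz _ (by linarith), dz _ (by linarith), neg_zero, zero_add, sub_zero, abs_mul,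
      abs_of_pos (by linarith)]
    nlinarith [hc' (u + 2)]
  · rw [dd, dz _ (by linarith), EventuallyEq.deriv_eq (f := fun _ => 1)
      ((eventually_gt_nhds (show 1 < u + 2 by linarith)).mono fun t ht => s1 t ht.le), deriv_const,
      abs_le]
    constructor <;> linarith [(p ((u + 5 * w) / w)).1.1, (p ((u + 5 * w) / w)).1.2]

end Vale.Agent.P354IN
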