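import Vale.Agent.P354IN.Cal
import Vale.Agent.P354SG.Cb

/-!
The initial values: the formulas, and the jets which are common to all zones.
-/

open scoped ContDiff Topology
open Set Filter

noncomputable section

namespace Vale.Agent.P354IN

open Vale.Agent.P354n (R4)
open Vale.Agent.P354H (X3)
open Vale.Agent.P354XE (Tw)
open Vale.Agent.P354YQ (SA JB JD)
open Vale.Agent.P354SA Vale.Agent.P354SG

/-- The cut off, the point on the slice, and the initial value. -/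
def ch (T u : ℝ) : ℝ := 1 - Real.smoothTransition (20 * (u + 2 * T) / T - 1)
def pp (b : ℝ → ℝ) (x : R4) : X3 := (b x.2.1, x.2.2)
def aa (T : ℝ) (b : ℝ → ℝ) (S : X3 → ℝ) (x : R4) : ℝ := S (pp b x) - b x.2.1 - 2 * T
def la (T : ℝ) (b : ℝ → ℝ) (S : X3 → ℝ) (x : R4) : ℝ := -x.2.1 + ch T x.2.1 * aa T b S x
def lam (S : X3 → ℝ) (y : X3) : R2 := (fderiv ℝ S y (0, 1, 0), fderiv ℝ S y (0, 0, 1))

variable {T : ℝ} {b : ℝ → ℝ} {S : X3 → ℝ} {x : R4} {g : Tw}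

theorem st_cd : ContDiff ℝ ∞ Real.smoothTransition := Real.smoothTransition.contDiff

theorem ch_cd (T : ℝ) : ContDiff ℝ ∞ (ch T) := contDiff_const.sub (st_cd.comp (by fun_prop))

theorem ch_mem (T u : ℝ) : 0 ≤ ch T u ∧ ch T u ≤ 1 :=
  ⟨sub_nonneg.2 (Real.smoothTransition.le_one _), sub_le_self _ (Real.smoothTransition.nonneg _)⟩

theorem ch_d (T u : ℝ) : deriv (ch T) u =
    -(20 * (T⁻¹ * deriv Real.smoothTransition (20 * (u + 2 * T) / T - 1))) := by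
  refine ((((st_cd.differentiable (by simp) _).hasDerivAt).comp u (((((hasDerivAt_id u).add_const
    (2 * T)).const_mul 20).div_const T).sub_const 1)).const_sub 1).deriv.trans ?_
  simp only [id]
  ring

theorem ch_one (hT : 0 < T) {u : ℝ} (h : u ≤ -2 * T + T / 20) : ch T u = 1 := by
  rw [ch, Real.smoothTransition.zero_of_nonpos, sub_zero]
  rw [sub_nonpos, div_le_one hT]
  linarith

theorem ch_zero (hT : 0 < T) {u : ℝ} (h : -(19 / 10 * T) ≤ u) : ch T u = 0 := by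
  rw [ch, Real.smoothTransition.one_of_one_le, sub_self]
  rw [le_sub_iff_add_le, le_div_iff₀ hT]
  linarith

theorem pp_cd (hb : ContDiff ℝ ∞ b) : ContDiff ℝ ∞ (pp b) := by unfold pp; fun_prop

theorem la_sa (hb : ContDiff ℝ ∞ b) (hS : SA S (pp b x)) : SA (la T b S) x :=
  (hS.comp (SA.of (pp_cd hb))).mono fun _ h => contDiffAt_snd.fst.neg.add
    ((((ch_cd T).comp contDiff_snd.fst).contDiffAt).mul
      ((h.sub (hb.comp contDiff_snd.fst).contDiffAt).sub contDiffAt_const))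

theorem la_fd (hb : ContDiff ℝ ∞ b) (hS : DifferentiableAt ℝ S (pp b x)) (h : R4) :
    dv h (la T b S) x = -h.2.1 + deriv (ch T) x.2.1 * h.2.1 * aa T b S x + ch T x.2.1 *
      (fderiv ℝ S (pp b x) (deriv b x.2.1 * h.2.1, h.2.2) - deriv b x.2.1 * h.2.1) := by
  have u := (hasFDerivAt_id (𝕜 := ℝ) x).snd.fst
  have d1 := ((hb.differentiable (by simp) x.2.1).hasDerivAt).comp_hasFDerivAt x u
  have d2 := (((ch_cd T).differentiable (by simp) x.2.1).hasDerivAt).comp_hasFDerivAt x u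
  have d3 := hS.hasFDerivAt.comp x (d1.prodMk (hasFDerivAt_id (𝕜 := ℝ) x).snd.snd)
  have d := (u.neg.add (d2.mul ((d3.sub d1).sub_const (2 * T)))).fderiv
  refine (DFunLike.congr_fun d h).trans ?_
  simp [aa, pp]
  ring

theorem gy_eq (hb : ContDiff ℝ ∞ b) (hS : DifferentiableAt ℝ S (pp b x)) :
    gy (la T b S) x = ch T x.2.1 • lam S (pp b x) := by
  simp [gy, la_fd hb hS, lam, ey]

theorem mu_eq (hb : ContDiff ℝ ∞ b) (hS : DifferentiableAt ℝ S (pp b x)) :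
    mu0 g b (la T b S) x = -1 + deriv (ch T) x.2.1 * aa T b S x + deriv b x.2.1 *
      (ch T x.2.1 * (fderiv ℝ S (pp b x) (1, 0, 0) - 1) -
        Hm g ((la T b S x, pp b x), ch T x.2.1 • lam S (pp b x))) := by
  have e : ((deriv b x.2.1 * e1.2.1, e1.2.2) : X3) = deriv b x.2.1 • (1, 0, 0) := by simp [e1]
  rw [mu0, gy_eq hb hS, la_fd hb hS, e, map_smul]
  simp only [e1, z0, pp, smul_eq_mul]
  ring

theorem trv_eq (z : R4) : trv S g z =
    fderiv ℝ S z.2 (1, 0, 0) - ∑ a, a1 g a z * lc a (lam S z.2) - a0 g z := by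
  have e : (lh g z).2 = (1, 0, 0) - a1 g 0 z • (0, 1, 0) - a1 g 1 z • ((0, 0, 1) : X3) := by
    simp [lh]
  rw [trv, e, map_sub, map_sub, map_smul, map_smul]
  simp [lc, lam]
  ring

theorem ax_td (θ κ : ℝ) (x : R4) : Tendsto (fun ξ => x + ax θ κ ξ) (𝓝 0) (𝓝 x) := by
  have c : Continuous fun ξ => x + ax θ κ ξ := by unfold ax; fun_prop
  exact c.tendsto' 0 x (by simp [ax, Prod.ext_iff])

theorem jb_ge (x : ℝ) : x ≤ jb x ∧ 1 ≤ jb x :=
  ⟨Real.le_sqrt_of_sq_le (by linarith), Real.one_le_sqrt.2 (by linarith [sq_nonneg x])⟩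

/-- A configuration. -/
structure Cf (n : ℕ) (C0 C w c B : ℝ) where
  (ε T L δ sc sw σ : ℝ)
  S : X3 → ℝ
  g : Tw
  b : ℝ → ℝ
  x : R4
  hw : w ∈ Ioc (0 : ℝ) (1 / 10)
  hε : ε ∈ Ioc (0 : ℝ) (1 / 40)
  hL : 40 + 2 * C ≤ L
  hT : L ^ 2 ≤ T
  ray : Ray (n + 4) C0 C ε T L w δ sc sw σ S g
  hu : x.2.1 ∈ Icc (-2 * T - 5 * w) (4 * w)
  hy : ‖x.2.2‖ < 7
  hb : Be c w T b
  hj : ∀ u, JD (n + 3) b u B

variable {n : ℕ} {C0 C w c B : ℝ}

namespace Cf
variable (j : Cf n C0 C w c B)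

theorem num : 42 ≤ j.L ∧ j.L ≤ j.T ∧ 1 ≤ j.T / j.L ∧ j.L * (j.T / j.L) = j.T ∧
    (j.T / j.L)⁻¹ = j.L / j.T ∧ 0 < j.L / j.T ∧ j.L / j.T ≤ 1 := by
  have a : 42 ≤ j.L := by linarith [j.hL, j.ray.par.2.1]
  have b : j.L ≤ j.T := by nlinarith [j.hT]
  exact ⟨a, b, (one_le_div (by linarith)).2 b, mul_div_cancel₀ _ (by linarith), inv_div _ _,
    div_pos (by linarith) (by linarith), (div_le_one (by linarith)).2 b⟩

theorem L0 : 0 < j.L := by linarith [j.num.1]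
theorem T0 : 0 < j.T := by linarith [j.num.1, j.num.2.1]

theorem wn : pp j.b j.x ∈ Wn w :=
  ⟨⟨by linarith [(j.hb.rng _ j.hu).1, j.hw.1, show (pp j.b j.x).1 = j.b j.x.2.1 from rfl],
    by linarith [(j.hb.rng _ j.hu).2, j.hw.1, show (pp j.b j.x).1 = j.b j.x.2.1 from rfl]⟩,
    j.hy.trans (by norm_num)⟩

theorem sa : SA j.S (pp j.b j.x) := by
  have k := (j.ray.bot _ j.wn).2.2.1.sm
  refine (SA.comp (f := fun z => (j.T / j.L) • (z - pp j.b j.x)) (by simpa using k)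
    (SA.of (by fun_prop))).congr (.of_forall fun z => ?_)
  simp only [smul_smul, ← j.num.2.2.2.2.1, inv_mul_cancel₀ (zero_lt_one.trans_le j.num.2.2.1).ne',
    one_smul, add_sub_cancel]

theorem ev : ∀ᶠ x in 𝓝 j.x, DifferentiableAt ℝ j.S (pp j.b x) :=
  (pp_cd j.hb.sm).continuous.continuousAt.eventually (j.sa.mono fun _ h =>
    h.differentiableAt (by simp))

theorem aa_le : |aa j.T j.b j.S j.x| ≤ j.ε * j.T + 1 / 2 := by
  have k := abs_le.1 (j.ray.bot _ j.wn).1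
  have := j.hb.rng _ j.hu
  rw [aa, abs_le]
  constructor <;> linarith [k.1, k.2, this.1, this.2, j.hw.1, j.hw.2]

theorem lam_le (a : Fin 2) : |lc a (lam j.S (pp j.b j.x))| ≤ j.ε * j.T := by
  have k := (j.ray.bot _ j.wn).2.1 a
  fin_cases a <;> exact k

end Cf

variable {J V : Type} [NormedAddCommGroup V] [NormedSpace ℝ V] {k : ℕ} {μ : J → ℝ}

theorem ij_of {l θ κ : J → ℝ} {g : J → Tw} {b : J → ℝ → ℝ} {La : J → R4 → ℝ} {x : J → R4}
    (par : ∀ j, (θ j)⁻¹ ≤ κ j ∧ κ j ≤ l j)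
    (h1 : OD k 0 (fun j ξ => θ j * b j (x j + ax (θ j) (κ j) ξ).2.1) 1)
    (h2 : OD k 0 (fun j ξ => (l j)⁻¹ * La j (x j + ax (θ j) (κ j) ξ)) 1)
    (h3 : OD k 0 (fun j ξ => (l j * θ j)⁻¹ • gy (La j) (x j + ax (θ j) (κ j) ξ)) 1)
    (h4 : OB k 0 (fun j ξ => mu0 (g j) (b j) (La j) (x j + ax (θ j) (κ j) ξ)) 1) :
    ∃ K0, 1 ≤ K0 ∧ ∀ j, ∀ K ≥ K0, Ij k K (l j) (θ j) (κ j) K0 (g j) (b j) (La j) (x j) := by
  obtain ⟨K1, a1, b1⟩ := h1.bd
  obtain ⟨K2, a2, b2⟩ := h2.bd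
  obtain ⟨K3, a3, b3⟩ := h3.bd
  obtain ⟨K4, a4, b4⟩ := h4.bd
  exact ⟨K1 + K2 + K3 + K4, by linarith, fun j K hK => ⟨⟨(par j).1, (par j).2, by linarith⟩,
    (b1 j).mono (by linarith), (b2 j).mono (by linarith), (b3 j).mono (by linarith),
    (b4 j).mono (by linarith), (b4 j).jd.mono (by linarith)⟩⟩

/-- The coordinate u, which varies at the rate κ. -/
theorem od_u (x : J → R4) (θ : J → ℝ) {κ : J → ℝ} (h0 : ∀ j, 0 ≤ κ j) :
    OD k 0 (fun j ξ => (x j + ax (θ j) (κ j) ξ).2.1) κ :=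
  (OD.const (fun j => (x j).2.1) h0).add (((OD.lin ((ContinuousLinearMap.fst ℝ ℝ R2).comp
    (.snd ℝ ℝ X3))).cs κ h0).wt 1 h0 fun j => by simp)

theorem ob_dv {x : J → ℝ} {f : J → ℝ → ℝ} (h : OD (k + 1) x f μ) :
    OB k x (fun j => deriv (f j)) μ := h.fd.app 1

section zB
variable (φ : J → Cf n C0 C w c B) {κ : J → ℝ}

/-- The point x in the scaled variables. -/
def xx (κ : J → ℝ) (j : J) (ξ : R4) : R4 := (φ j).x + ax ((φ j).T / (φ j).L) (κ j) ξ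

theorem xx0 (j : J) : xx φ κ j 0 = (φ j).x := by simp [xx, ax]

/-- The point on the slice in the scaled variables. -/
def yy (κ : J → ℝ) (j : J) (ξ : R4) : X3 :=
  ((φ j).T / (φ j).L) • (pp (φ j).b (xx φ κ j ξ) - pp (φ j).b (φ j).x)

theorem yy_eq (j : J) (ξ : R4) : pp (φ j).b (φ j).x + ((φ j).L / (φ j).T) • yy φ κ j ξ =
    pp (φ j).b (xx φ κ j ξ) := by
  rw [yy, smul_smul, ← (φ j).num.2.2.2.2.1,
    inv_mul_cancel₀ (zero_lt_one.trans_le (φ j).num.2.2.1).ne', one_smul, add_sub_cancel]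

variable (h1 : OD (n + 2) 0 (fun j ξ => (φ j).T / (φ j).L * (φ j).b (xx φ κ j ξ).2.1) 1)
include h1

theorem od_y : OD (n + 2) 0 (yy φ κ) 1 :=
  ((h1.sub (OD.const (fun j => (φ j).T / (φ j).L * (φ j).b (φ j).x.2.1) fun _ => zero_le_one)).prod
    (OD.lin ((ContinuousLinearMap.snd ℝ ℝ R2).comp (.snd ℝ ℝ X3)))).congr' fun j ξ => by
    refine Prod.ext (mul_sub _ _ _) ?_
    simp [yy, pp, xx, ax, smul_smul, div_mul_div_cancel₀' (φ j).T0.ne', (φ j).L0.ne']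

theorem ob_tr {F : J → X3 → V}
    (h : OB (n + 2) 0 (fun j ζ => F j (pp (φ j).b (φ j).x + ((φ j).L / (φ j).T) • ζ)) μ) :
    OB (n + 2) 0 (fun j ξ => F j (pp (φ j).b (xx φ κ j ξ))) μ :=
  ((h.pt fun j => by simp [yy, xx0]).comp (od_y φ h1)).congr' fun j ξ => by rw [yy_eq]

omit h1 in
theorem od_S0 : OD (n + 5) 0 (fun j ζ => (φ j).S (pp (φ j).b (φ j).x + ((φ j).L / (φ j).T) • ζ))
    fun j => (φ j).L :=
  .of (fun j => (φ j).L0.le) fun j => ((φ j).ray.bot _ (φ j).wn).2.2.1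

theorem od_S : OD (n + 2) 0 (fun j ξ => (φ j).S (pp (φ j).b (xx φ κ j ξ))) fun j => (φ j).L :=
  ((((od_S0 φ).ord (by omega)).pt fun j => by simp [yy, xx0]).comp (od_y φ h1)).congr'
    fun j ξ => by rw [yy_eq]

theorem ob_DS : OB (n + 2) 0 (fun j ξ => fderiv ℝ (φ j).S (pp (φ j).b (xx φ κ j ξ)))
    fun j => (φ j).T := by
  refine ob_tr φ h1 (((((od_S0 φ).fd.ord (by omega)).cs (fun j => (φ j).T / (φ j).L) fun j =>
    zero_le_one.trans (φ j).num.2.2.1).wt 1 (fun j => (φ j).T0.le) fun j => ?_).congr fun j => ?_)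
  · rw [one_mul, Pi.mul_apply, mul_comm, (φ j).num.2.2.2.1]
  have c : Tendsto (fun ζ => pp (φ j).b (φ j).x + ((φ j).L / (φ j).T) • ζ) (𝓝 0)
      (𝓝 (pp (φ j).b (φ j).x)) := by
    simpa using (show Continuous fun ζ : X3 => pp (φ j).b (φ j).x + ((φ j).L / (φ j).T) • ζ by
      fun_prop).tendsto 0
  filter_upwards [c.eventually (φ j).sa] with ζ h
  have d := (h.differentiableAt (by simp)).hasFDerivAt.comp ζ
    (((hasFDerivAt_id ζ).const_smul ((φ j).L / (φ j).T)).const_add _)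
  rw [show fderiv ℝ (fun ζ => (φ j).S (pp (φ j).b (φ j).x + ((φ j).L / (φ j).T) • ζ)) ζ = _
    from d.fderiv]
  ext <;> simp [← mul_assoc, div_mul_div_cancel₀' (φ j).T0.ne', (φ j).L0.ne']

theorem ob_lam : OB (n + 2) 0 (fun j ξ => lam (φ j).S (pp (φ j).b (xx φ κ j ξ)))
    fun j => (φ j).T :=
  (ob_DS φ h1).clm ((ContinuousLinearMap.apply ℝ ℝ ((0, 1, 0) : X3)).prod
    (ContinuousLinearMap.apply ℝ ℝ ((0, 0, 1) : X3)))

theorem od_b : OD (n + 2) 0 (fun j ξ => (φ j).b (xx φ κ j ξ).2.1) 1 :=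
  ((h1.cs (fun j => (φ j).L / (φ j).T) fun j => (φ j).num.2.2.2.2.2.1.le).wt 1
    (fun _ => zero_le_one) fun j => by simpa using (φ j).num.2.2.2.2.2.2).congr' fun j ξ => by
    simp [← mul_assoc, div_mul_div_cancel₀' (φ j).L0.ne', (φ j).T0.ne']

theorem od_aa : OD (n + 2) 0 (fun j ξ => aa (φ j).T (φ j).b (φ j).S (xx φ κ j ξ))
    fun j => (φ j).L :=
  ((od_S φ h1).sub ((od_b φ h1).wt 1 (fun j => (φ j).L0.le) fun j => by
    simp only [Pi.one_apply]; linarith [(φ j).num.1])).sub (OD.const _ fun j => (φ j).L0.le)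

theorem ob_aa : OB (n + 2) 0 (fun j ξ => aa (φ j).T (φ j).b (φ j).S (xx φ κ j ξ))
    fun j => (φ j).T :=
  ((od_aa φ h1).wt 1 (fun j => (φ j).T0.le) fun j => by linarith [(φ j).num.2.1]).ob 1 fun j => by
    have := (φ j).aa_le
    rw [Pi.zero_apply, xx0, Real.norm_eq_abs]
    nlinarith [(φ j).hε.2, (φ j).num.1, (φ j).num.2.1]

variable (hκ : ∀ j, ((φ j).T / (φ j).L)⁻¹ ≤ κ j ∧ κ j ≤ (φ j).L)
include hκ

omit h1 in
theorem od_arg (k : ℕ) : OD k 0 (fun j ξ => 20 * ((xx φ κ j ξ).2.1 + 2 * (φ j).T) / (φ j).T - 1)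
    fun j => (φ j).L / (φ j).T := by
  have k0 : ∀ j, 0 ≤ κ j := fun j => ((φ j).num.2.2.2.2.1 ▸ (φ j).num.2.2.2.2.2.1.le).trans (hκ j).1
  have n := fun j => (φ j).num.2.2.2.2.2.1.le
  refine (((((od_u (fun j => (φ j).x) (fun j => (φ j).T / (φ j).L) k0).cs (fun j => 20 / (φ j).T) fun j =>
    div_nonneg (by norm_num) (φ j).T0.le).wt 20 n fun j => ?_)).add
    (OD.const (fun _ => (39 : ℝ)) n)).congr' fun j ξ => ?_
  · rw [Pi.mul_apply, div_mul_eq_mul_div, mul_div_assoc]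
    exact mul_le_mul_of_nonneg_left (div_le_div_of_nonneg_right (hκ j).2 (φ j).T0.le) (by norm_num)
  · have := (φ j).T0.ne'
    simp only [smul_eq_mul, xx]
    field_simp
    ring

omit h1 in
theorem od_ch : OD (n + 2) 0 (fun j ξ => ch (φ j).T (xx φ κ j ξ).2.1) fun j => (φ j).L / (φ j).T :=
  let ⟨_, hB⟩ := st_jd (n + 2)
  (OD.const (fun _ => (1 : ℝ)) fun j => (φ j).num.2.2.2.2.2.1.le).sub ((OD.of1 fun _ => hB _).slow
    ((od_arg φ hκ (n + 1)).wt 1 (fun _ => zero_le_one) fun j => by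
      simpa using (φ j).num.2.2.2.2.2.2) (od_arg φ hκ _))

omit h1 in
theorem ob_ch : OB (n + 2) 0 (fun j ξ => ch (φ j).T (xx φ κ j ξ).2.1) 1 :=
  ((od_ch φ hκ).wt 1 (fun _ => zero_le_one) fun j => by
    simpa using (φ j).num.2.2.2.2.2.2).ob 1 fun j => by
    rw [Real.norm_of_nonneg (ch_mem _ _).1, one_mul]; exact (ch_mem _ _).2

/-- The jets in the zone near the initial slice. -/
theorem ij_B (h4 : OB (n + 2) 0 (fun j ξ => mu0 (φ j).g (φ j).b (la (φ j).T (φ j).b (φ j).S)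
    (xx φ κ j ξ)) 1) : ∃ K0, 1 ≤ K0 ∧ ∀ j, ∀ K ≥ K0, Ij (n + 2) K (φ j).L ((φ j).T / (φ j).L)
      (κ j) K0 (φ j).g (φ j).b (la (φ j).T (φ j).b (φ j).S) (φ j).x := by
  have k0 : ∀ j, 0 ≤ κ j := fun j => ((φ j).num.2.2.2.2.1 ▸ (φ j).num.2.2.2.2.2.1.le).trans (hκ j).1
  have n := fun j => (φ j).L0.le
  refine ij_of hκ h1 ?_ ?_ h4
  · refine (((((od_ch φ hκ).mul (fun j => (abs_of_nonneg (ch_mem _ _).1).trans_le (ch_mem _ _).2) (od_aa φ h1) (ob_aa φ h1) fun j =>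
      (div_mul_cancel₀ _ (φ j).T0.ne').le).sub ((od_u (fun j => (φ j).x) (fun j => (φ j).T / (φ j).L) k0).wt 1 n fun j =>
      (one_mul (φ j).L).symm ▸ (hκ j).2)).cs (fun j => (φ j).L⁻¹) fun j => inv_nonneg.2 (n j)).wt 1
      (fun _ => zero_le_one) fun j => ?_).congr' fun j ξ => ?_
    · simp [(φ j).L0.ne']
    · simp only [la, xx, smul_eq_mul]
      ring
  · refine (((((ob_ch φ hκ).smul (ob_lam φ h1)).cs (fun j => (φ j).T⁻¹) fun j =>
      inv_nonneg.2 (φ j).T0.le).wt 1 (fun _ => zero_le_one) fun j => ?_).congr fun j => ?_).od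
    · simp [(φ j).T0.ne']
    · filter_upwards [(ax_td _ (κ j) _).eventually (φ j).ev] with ξ h
      rw [(φ j).num.2.2.2.1, gy_eq (φ j).hb.sm h]
      rfl

end zB

end Vale.Agent.P354IN
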