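import Vale.Agent.P354IN.Za

/-!
The initial values of the characteristics: the other zones, and the theorem.
-/

open scoped ContDiff Topology
open Set Filter

noncomputable section

namespace Vale.Agent.P354IN

open Vale.Agent.P354n (R4)
open Vale.Agent.P354H (X3)
open Vale.Agent.P354XE (Tw)
open Vale.Agent.P354YQ (SA JB JD)
open Vale.Agent.P354SA Vale.Agent.P354SG

variable {n : ℕ} {C0 C w c B : ℝ}

theorem db_ev (j : Cf n C0 C w c B) (h : -2 * j.T + 5 * w < j.x.2.1) (h' : j.x.2.1 < -2) :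
    ∀ᶠ x in 𝓝 j.x, j.b x.2.1 = -4 * w ∧ deriv j.b x.2.1 = 0 :=
  continuous_snd.fst.continuousAt.eventually (p := fun u => j.b u = -4 * w ∧ deriv j.b u = 0)
    ((j.hb.b _ h h').and ((j.hb.b _ h h').deriv.mono fun _ e => e.trans (deriv_const _ _)))

/-- **The zone of the cut off.** -/
theorem case_b (n : ℕ) (C0 C w c B : ℝ) : ∃ K0 A, 1 ≤ K0 ∧ 0 ≤ A ∧ ∀ j : Cf n C0 C w c B,
    -2 * j.T + 5 * w < j.x.2.1 → j.x.2.1 < -2 →
      (∀ K ≥ K0, Ij (n + 2) K j.L (j.T / j.L) j.L K0 j.g j.b (la j.T j.b j.S) j.x) ∧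
      (A * j.ε ≤ 1 → 1 ≤ j.ε * j.T → mu0 j.g j.b (la j.T j.b j.S) j.x ≤ -2⁻¹) := by
  let J := {j : Cf n C0 C w c B // -2 * j.T + 5 * w < j.x.2.1 ∧ j.x.2.1 < -2}
  let φ : J → Cf n C0 C w c B := Subtype.val
  have o := fun _ : J => zero_le_one' ℝ
  have t0 : ∀ j, 0 ≤ (φ j).T⁻¹ := fun j => inv_nonneg.2 (φ j).T0.le
  have hκ : ∀ j, ((φ j).T / (φ j).L)⁻¹ ≤ (φ j).L ∧ (φ j).L ≤ (φ j).L := fun j =>
    ⟨(inv_le_one_of_one_le₀ (φ j).num.2.2.1).trans (by linarith [(φ j).num.1]), le_rfl⟩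
  have ev := fun j : J => (ax_td ((φ j).T / (φ j).L) (φ j).L _).eventually
    ((φ j).ev.and (db_ev (φ j) j.2.1 j.2.2))
  have h1 : OD (n + 2) 0 (fun j ξ => (φ j).T / (φ j).L * (φ j).b (xx φ (fun j => (φ j).L) j ξ).2.1)
      1 := (OD.const (fun j => (φ j).T / (φ j).L * (-4 * w)) o).congr fun j =>
    (ev j).mono fun ξ h => congrArg _ h.2.1
  obtain ⟨_, hB⟩ := st_jd (n + 3)
  have D : OB (n + 2) 0 (fun j ξ => deriv (ch (φ j).T) (xx φ (fun j => (φ j).L) j ξ).2.1)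
      fun j => (φ j).T⁻¹ := ((((((ob_dv (OD.of1 fun _ => hB _)).comp ((od_arg φ hκ _).wt 1 o
    fun j => by simpa using (φ j).num.2.2.2.2.2.2)).cs _ t0).clm
      ((-20 : ℝ) • .id ℝ ℝ))).wt 1 t0 fun j => by simp).congr' fun j ξ => by simp [ch_d]
  have m : ∀ j x, DifferentiableAt ℝ (φ j).S (pp (φ j).b x) → deriv (φ j).b x.2.1 = 0 →
      mu0 (φ j).g (φ j).b (la (φ j).T (φ j).b (φ j).S) x =
        -1 + deriv (ch (φ j).T) x.2.1 * aa (φ j).T (φ j).b (φ j).S x := fun j x h e => by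
    rw [mu_eq (φ j).hb.sm h, e, zero_mul, add_zero]
  obtain ⟨K0, K1, hK⟩ := ij_B φ h1 hκ (((OB.cst (-1 : ℝ)).add ((D.smul (ob_aa φ h1)).wt 1 o
    fun j => by simp [(φ j).T0.ne'])).congr fun j => (ev j).mono fun ξ h => m j _ h.1 h.2.2)
  obtain ⟨A, A0, hA⟩ := D.2
  refine ⟨K0, 4 * A, K1, by linarith, fun j h h' => ⟨hK ⟨j, h, h'⟩, fun hε hT => ?_⟩⟩
  have a := (hA ⟨j, h, h'⟩).zero
  simp only [Pi.zero_apply, xx0] at a
  have b : |deriv (ch j.T) j.x.2.1 * aa j.T j.b j.S j.x| ≤ A * j.T⁻¹ * (2 * (j.ε * j.T)) :=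
    (abs_mul _ _).trans_le (mul_le_mul a (by linarith [j.aa_le]) (abs_nonneg _)
      (mul_nonneg A0 (t0 ⟨j, h, h'⟩)))
  have e : A * j.T⁻¹ * (2 * (j.ε * j.T)) = 2 * (A * j.ε) := by
    have := j.T0.ne'
    field_simp
  refine (m ⟨j, h, h'⟩ _ j.ev.self_of_nhds (db_ev j h h').self_of_nhds.2).trans_le ?_
  linarith [(abs_le.1 b).2, show φ ⟨j, h, h'⟩ = j from rfl]

theorem la_ev {T : ℝ} (b : ℝ → ℝ) (S : X3 → ℝ) {x : R4} (hT : 0 < T) (h : -(19 / 10 * T) < x.2.1) :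
    la T b S =ᶠ[𝓝 x] fun x' => -x'.2.1 :=
  (continuous_snd.fst.continuousAt.eventually (eventually_gt_nhds h)).mono fun x' e => by
    simp only [la, ch_zero hT e.le, zero_mul, add_zero]

theorem mu_A {La : R4 → ℝ} {x : R4} (g : Tw) (b : ℝ → ℝ) (h : La =ᶠ[𝓝 x] fun x' => -x'.2.1) :
    gy La x = 0 ∧ mu0 g b La x = -1 - deriv b x.2.1 * a0 g (-x.2.1, b x.2.1, x.2.2) := by
  have d : ∀ v, dv v La x = -v.2.1 := fun v => by
    rw [dv, h.fderiv_eq]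
    exact DFunLike.congr_fun (hasFDerivAt_id (𝕜 := ℝ) x).snd.fst.neg.fderiv v
  have e : gy La x = 0 := by simp [gy, d, ey]
  exact ⟨e, by simp [mu0, e, d, e1, z0, h.self_of_nhds, Hm, lc]⟩

theorem ij_A {J : Type} (φ : J → Cf n C0 C w c B) (hA : ∀ j, -(19 / 10 * (φ j).T) < (φ j).x.2.1)
    (h4 : OB (n + 2) 0 (fun j ξ => deriv (φ j).b ((φ j).x + ax 1 1 ξ).2.1 * a0 (φ j).g
      (-((φ j).x + ax 1 1 ξ).2.1, (φ j).b ((φ j).x + ax 1 1 ξ).2.1, ((φ j).x + ax 1 1 ξ).2.2)) 1) :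
    ∃ K0, 1 ≤ K0 ∧ ∀ j, ∀ K ≥ K0, Ij (n + 2) K 1 1 1 K0 (φ j).g (φ j).b
      (la (φ j).T (φ j).b (φ j).S) (φ j).x := by
  have o := fun _ : J => zero_le_one' ℝ
  have u : OD (n + 2) 0 (fun j ξ => ((φ j).x + ax 1 1 ξ).2.1) 1 := od_u _ 1 (κ := 1) o
  have ev := fun j => (ax_td 1 1 _).eventually
    (la_ev (φ j).b (φ j).S (φ j).T0 (hA j)).eventually_nhds
  exact ij_of (l := 1) (θ := 1) (κ := 1) (fun _ => by simp)
    (((OD.of1 fun j => ((φ j).hj _).ord (by omega)).comp u).congr' fun j ξ => one_mul _)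
    (((OD.const 0 o).sub u).congr fun j => (ev j).mono fun ξ h => by
      simpa using h.self_of_nhds)
    ((OD.const 0 o).congr fun j => (ev j).mono fun ξ h => by
      simp only [Pi.one_apply, (mu_A (φ j).g (φ j).b h).1, smul_zero, Pi.zero_apply])
    (((OB.cst (-1 : ℝ)).sub h4).congr fun j => (ev j).mono fun ξ h => (mu_A _ _ h).2)

/-- **The middle zone.** -/
theorem case_c (n : ℕ) (C0 C w c B : ℝ) : ∃ K0, 1 ≤ K0 ∧ ∀ j : Cf n C0 C w c B,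
    -(19 / 10 * j.T) < j.x.2.1 → j.x.2.1 < -2 → mu0 j.g j.b (la j.T j.b j.S) j.x = -1 ∧
      ∀ K ≥ K0, Ij (n + 2) K 1 1 1 0 j.g j.b (la j.T j.b j.S) j.x := by
  have ev := fun (j : Cf n C0 C w c B) (h : -(19 / 10 * j.T) < j.x.2.1) =>
    db_ev j (by linarith [j.hw.2, j.num.1, j.num.2.1])
  obtain ⟨K0, K1, hK⟩ := ij_A (Subtype.val : {j : Cf n C0 C w c B //
    -(19 / 10 * j.T) < j.x.2.1 ∧ j.x.2.1 < -2} → _) (fun j => j.2.1) ((OB.cst (0 : ℝ)).congr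
    fun j => ((ax_td 1 1 _).eventually (ev _ j.2.1 j.2.2)).mono fun ξ h => by
      simp only [h.2, zero_mul])
  refine ⟨K0, K1, fun j h h' => ?_⟩
  have m : ∀ᶠ x in 𝓝 j.x, mu0 j.g j.b (la j.T j.b j.S) x = -1 :=
    ((ev j h h').and (la_ev j.b j.S j.T0 h).eventually_nhds).mono fun x e => by
      rw [(mu_A _ _ e.2).2, e.1.2, zero_mul, sub_zero]
  exact ⟨m.self_of_nhds, fun K k => let i := hK ⟨j, h, h'⟩ K k
    ⟨⟨i.par.1, i.par.2.1, le_rfl⟩, i.jbe, i.jla, i.jgy, i.mu,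
      (JD.const (-1)).congr ((ax_td 1 1 _).eventually m)⟩⟩

theorem Cf.rd (j : Cf n C0 C w c B) {s : ℝ} (h1 : j.b j.x.2.1 ≤ s) (h2 : s ≤ 2) :
    (s, pp j.b j.x) ∈ RD w j.δ j.S ∧ ∃ r m rc, Rp (n + 4) C0 C r m 1 rc j.g (s, pp j.b j.x) := by
  have a := abs_le.1 (j.ray.bot _ j.wn).1
  have T1 : 42 ≤ j.T := j.num.1.trans j.num.2.1
  have := mul_le_mul_of_nonneg_right j.hε.2 j.T0.le
  have δ0 := j.ray.par.2.2.1
  have m : (s, pp j.b j.x) ∈ RD w j.δ j.S := ⟨j.wn, (sub_lt_self _ δ0).trans_le h1, by linarith⟩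
  have k := j.ray.pt _ m
  rw [if_neg (not_le.2 (by linarith [j.wn.1.1, j.hw.2]))] at k
  exact ⟨m, _, _, _, k⟩

/-- **The top zone.** -/
theorem case_d (n : ℕ) (C0 C w c B : ℝ) : ∃ K0, 1 ≤ K0 ∧ ∀ j : Cf n C0 C w c B,
    -2 ≤ j.x.2.1 → (∀ K ≥ K0, Ij (n + 2) K 1 1 1 K0 j.g j.b (la j.T j.b j.S) j.x) ∧
      (w * c * C0 ≤ 1 / 2 → w * C0 ≤ 1 / 5 →
        mu0 j.g j.b (la j.T j.b j.S) j.x ∈ Icc (-3 / 2) (-1 / 2)) := by
  let J := {j : Cf n C0 C w c B // -2 ≤ j.x.2.1}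
  have o := fun _ : J => zero_le_one' ℝ
  have hA : ∀ j : J, -(19 / 10 * j.1.T) < j.1.x.2.1 := fun j => by
    linarith [j.2, j.1.num.1, j.1.num.2.1]
  have hb : ∀ j : J, j.1.b j.1.x.2.1 ≤ -j.1.x.2.1 := fun j => by
    rcases le_total j.1.x.2.1 (-1) with h | h
    exacts [by linarith [(j.1.hb.rng _ j.1.hu).2, j.1.hw.2], (j.1.hb.hi _ h).2]
  have u : OD (n + 2) 0 (fun (j : J) ξ => (j.1.x + ax 1 1 ξ).2.1) 1 := od_u _ 1 (κ := 1) o
  have i := ((OD.const 0 o).sub u.cen.od).prod ((((OD.of1 fun j => (j.1.hj _).ord (by omega)).comp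
    u).cen.od).prod (OD.lin ((ContinuousLinearMap.snd ℝ ℝ R2).comp (.snd ℝ ℝ X3))))
  obtain ⟨K0, K1, hK⟩ := ij_A (Subtype.val : J → _) hA ((ob_db _ u).mul1 ((((OB.of1 (x := 0)
    fun j : J => (j.1.rd (hb j) (by linarith [j.2])).2.elim fun _ k => k.elim fun _ k => k.elim
      fun _ k => k.one.2.1.ord (show n + 2 ≤ _ by omega)).pt fun j => by
        simp [Prod.ext_iff]).comp i).congr' fun j ξ => congrArg _ (by simp [dl, pp, ax, add_comm])))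
  refine ⟨K0, K1, fun j h => ⟨hK ⟨j, h⟩, fun h1 h2 => ?_⟩⟩
  have b : j.b j.x.2.1 ≤ -j.x.2.1 := hb ⟨j, h⟩
  have c0 := j.ray.par.1
  have w0 := j.hw.1
  have : |deriv j.b j.x.2.1 * a0 j.g (-j.x.2.1, j.b j.x.2.1, j.x.2.2)| ≤ 1 / 2 := by
    rw [abs_mul, show (j.b j.x.2.1, j.x.2.2) = pp j.b j.x from rfl]
    rcases lt_or_ge j.x.2.1 (-6 * w) with e | e
    · obtain ⟨-, r, m, rc, k⟩ := j.rd b (by linarith)
      have := (j.hb.d _ h).1 e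
      exact (mul_le_mul this k.sharp.1.zero (abs_nonneg _) ((abs_nonneg _).trans this)).trans h1
    have l : -j.x.2.1 - j.b j.x.2.1 ≤ 2 * w := by
      rcases min_le_iff.1 (j.hb.hi j.x.2.1 (by linarith [j.hw.2])).1 with e' | e' <;> linarith
    have R := fun ρ (m : ρ ∈ Icc (0 : ℝ) 1) => (j.rd (s := j.b j.x.2.1 + ρ * (-j.x.2.1 -
      j.b j.x.2.1)) (by nlinarith [m.1]) (by nlinarith [m.1, m.2])).2
    have a := (gron0 (k := 0) (x := (0 : ℝ)) (F := a0 j.g) (b := 2 * w * C0) (SA.of contDiff_const)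
      (SA.of contDiff_const) (SA.of contDiff_const) (fun ρ m => let ⟨_, _, _, k⟩ := R ρ m
        k.sharp.1.sm) fun ρ m => (JB.const _).mono (by
        obtain ⟨_, _, _, k⟩ := R ρ m
        rw [norm_mul, Real.norm_of_nonneg (sub_nonneg.2 b)]
        refine mul_le_mul l ((ContinuousLinearMap.le_opNorm _ _).trans ?_) (norm_nonneg _)
          (by linarith)
        rw [show ‖e0‖ = 1 by simp [e0, Prod.norm_def], mul_one]
        exact k.sharp.1.jd.fderiv.zero)).zero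
    have t := j.ray.top _ (j.rd le_rfl (by linarith)).1 (by simp [pp, j.ray.par.2.2.1.le])
    rw [add_sub_cancel, Real.norm_eq_abs] at a
    refine (mul_le_of_le_one_left (abs_nonneg _) ((j.hb.d _ h).2 e)).trans (abs_le.2 ⟨?_, ?_⟩) <;>
      linarith [abs_le.1 a, abs_le.1 t]
  rw [(mu_A _ _ (la_ev (x := j.x) j.b j.S j.T0 (hA ⟨j, h⟩))).2]
  exact ⟨by linarith [(abs_le.1 this).2], by linarith [(abs_le.1 this).1]⟩

theorem fd_gy {k : ℕ} {K l θ κ η : ℝ} {g : Tw} {b : ℝ → ℝ} {La : R4 → ℝ} {x : R4}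
    (h : Ij (k + 1) K l θ κ η g b La x) (hs : SA La x) (hl : 0 < l) (hθ : 0 < θ) (ζ : R2) :
    ‖fderiv ℝ (gy La) x (0, 0, ζ)‖ ≤ K * (l * θ) * θ * ‖ζ‖ := by
  have x0 : x + ax θ κ 0 = x := by simp [ax, Prod.ext_iff]
  have d : HasFDerivAt (gy La) (fderiv ℝ (gy La) x) (x + ax θ κ 0) :=
    x0.symm ▸ ((Cq.dv_sa hs _).prod (Cq.dv_sa hs _)).diff.hasFDerivAt
  have i := hasFDerivAt_id (𝕜 := ℝ) (0 : R4)
  have p := mul_pos hl hθ
  have e : fderiv ℝ (fun ξ => (l * θ)⁻¹ • gy La (x + ax θ κ ξ)) 0 (0, 0, θ • ζ) =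
      (l * θ)⁻¹ • fderiv ℝ (gy La) x (0, 0, ζ) := (DFunLike.congr_fun ((d.comp 0
    (((i.fst.const_mul θ⁻¹).prodMk ((i.snd.fst.const_mul κ).prodMk
      (i.snd.snd.const_smul θ⁻¹))).const_add x)).const_smul (l * θ)⁻¹).fderiv _).trans
    (by simp [smul_smul, hθ.ne', -mul_inv_rev])
  have a := ((fderiv ℝ _ 0).le_opNorm (0, 0, θ • ζ)).trans (mul_le_mul_of_nonneg_right
    h.jgy.fderiv.zero (norm_nonneg _))
  rw [e, norm_smul, Real.norm_of_nonneg (inv_pos.2 p).le, inv_mul_le_iff₀ p,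
    show ‖((0, 0, θ • ζ) : R4)‖ = θ * ‖ζ‖ by
      simp [Prod.norm_mk, norm_smul, abs_of_pos hθ, mul_nonneg hθ.le]] at a
  exact a.trans_eq (by ring)

theorem jb_le {x a : ℝ} (h : 1 + x ^ 2 ≤ a ^ 2) (ha : 0 < a) : a⁻¹ ≤ (jb x)⁻¹ :=
  inv_anti₀ (zero_lt_one.trans_le (jb_ge x).2) (Real.sqrt_le_iff.2 ⟨ha.le, h⟩)

theorem zb_val (j : Cf n C0 C w c B) (h : j.x.2.1 ≤ -(19 / 10 * j.T)) (eT : 1 ≤ j.ε * j.T) :
    |la j.T j.b j.S j.x + j.x.2.1| ≤ 2 * j.ε * j.T ∧ la j.T j.b j.S j.x ≤ j.S (pp j.b j.x) ∧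
      ‖gy (la j.T j.b j.S) j.x‖ ≤ j.ε * j.T := by
  have al := j.aa_le
  have cm := ch_mem j.T j.x.2.1
  have T1 : 42 ≤ j.T := j.num.1.trans j.num.2.1
  refine ⟨?_, ?_, ?_⟩
  · rw [la, neg_add_cancel_comm, abs_mul, abs_of_nonneg cm.1]
    exact (mul_le_of_le_one_left (abs_nonneg _) cm.2).trans (by linarith)
  · have l := (j.hb.lo j.x.2.1 (by linarith)).2
    rw [la]
    rcases le_total j.x.2.1 (-2 * j.T + j.T / 20) with h' | h'
    · rw [ch_one j.T0 h', aa]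
      linarith
    · have := mul_le_mul_of_nonneg_right j.hε.2 j.T0.le
      have e : j.S (pp j.b j.x) = aa j.T j.b j.S j.x + j.b j.x.2.1 + 2 * j.T := by rw [aa]; ring
      nlinarith [abs_le.1 al, (j.hb.rng _ j.hu).1, j.hw.2]
  · rw [gy_eq j.hb.sm j.ev.self_of_nhds, norm_smul, Real.norm_of_nonneg cm.1]
    exact (mul_le_of_le_one_left (norm_nonneg _) cm.2).trans (max_le (j.lam_le 0) (j.lam_le 1))

theorem zb_fin (j : Cf n C0 C w c B) {K κ K0 a : ℝ}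
    (i : Ij (n + 2) K j.L (j.T / j.L) κ K0 j.g j.b (la j.T j.b j.S) j.x) (a0 : 0 < a) (aK : a ≤ K)
    (m : mu0 j.g j.b (la j.T j.b j.S) j.x ≤ -a⁻¹) (kK : 2 * K0 ≤ K)
    (e : κ = (j.T / j.L)⁻¹ ∧ j.x.2.1 ≤ -2 * j.T + 5 * w ∨ κ = j.L) :
    (∀ η : R2, ‖fderiv ℝ (gy (la j.T j.b j.S)) j.x (0, 0, η)‖ ≤ K * j.T * (j.T / j.L) * ‖η‖) ∧
      mu0 j.g j.b (la j.T j.b j.S) j.x ∈ Icc (-K) (-K⁻¹) ∧ ∃ κ η, η ≤ K * κ * (j.T / j.L) *
        (j.T⁻¹ + (jb (j.x.2.1 + 2 * j.T))⁻¹) ∧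
        Ij (n + 2) K j.L (j.T / j.L) κ η j.g j.b (la j.T j.b j.S) j.x := by
  have n1 := zero_lt_one.trans_le j.num.2.2.1
  have n2 := j.num.2.2.2.1
  have i0 := inv_pos.2 j.T0
  have k0 := i.par.2.2
  refine ⟨fun η => by simpa only [n2] using fd_gy i (la_sa j.hb.sm j.sa) j.L0 n1 η,
    ⟨(abs_le.1 (by simpa [ax, ← Prod.zero_eq_mk] using i.mu.zero)).1,
      m.trans (neg_le_neg (inv_anti₀ a0 aK))⟩, κ, K0, ?_, i⟩
  rcases e with ⟨rfl, h⟩ | rfl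
  · rw [mul_assoc K, inv_mul_cancel₀ n1.ne', mul_one]
    have := jb_le (x := j.x.2.1 + 2 * j.T) (a := 2) (by nlinarith [j.hu.1, j.hw.2]) two_pos
    nlinarith
  · rw [mul_assoc K, n2, mul_assoc, mul_add, mul_inv_cancel₀ j.T0.ne']
    have := mul_nonneg j.T0.le (inv_nonneg.2 (zero_le_one.trans (jb_ge (j.x.2.1 + 2 * j.T)).2))
    nlinarith

/-- **INI.** -/
theorem ini' : INI := by
  intro C0
  obtain ⟨c, c0, hc⟩ := ex_be
  have p0 : 0 ≤ (5 + 2 * c) * |C0| := by positivity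
  refine ⟨1 / (10 + (5 + 2 * c) * |C0|), by positivity, fun w hw n C => ?_⟩
  have w1 := (le_div_iff₀ (by positivity)).1 hw.2
  have w0 := hw.1
  have hw' : w ∈ Ioc (0 : ℝ) (1 / 10) := ⟨w0, by nlinarith⟩
  have w2 : w * c * C0 ≤ 1 / 2 ∧ w * C0 ≤ 1 / 5 := by
    have := mul_le_mul_of_nonneg_left (le_abs_self C0) w0.le
    have := mul_le_mul_of_nonneg_left (le_abs_self C0) (mul_nonneg w0.le c0)
    have := mul_nonneg w0.le (abs_nonneg C0)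
    have := mul_nonneg (mul_nonneg w0.le c0) (abs_nonneg C0)
    constructor <;> linarith
  obtain ⟨be, hB, hb⟩ := hc w hw'
  obtain ⟨B, hB⟩ := hB (n + 3)
  obtain ⟨Ka, T1, Ka1, ha⟩ := case_a n C0 C w c B
  obtain ⟨Kb, A, Kb1, A0, hb'⟩ := case_b n C0 C w c B
  obtain ⟨Kc, Kc1, hc'⟩ := case_c n C0 C w c B
  obtain ⟨Kd, Kd1, hd⟩ := case_d n C0 C w c B
  have C' := abs_nonneg C
  have q0 := abs_nonneg (C * C0)
  refine ⟨2 * Ka + 2 * Kb + Kc + 3 * Kd + 2 * |C|, 1 / (40 + A + |C * C0|), by linarith,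
    by positivity, fun ε hε => ⟨40 + 2 * |C| + ε⁻¹ + |T1|, fun T L δ sc sw σ S g hL hT ray => ?_⟩⟩
  generalize hK : 2 * Ka + 2 * Kb + Kc + 3 * Kd + 2 * |C| = K
  have e1 := (le_div_iff₀ (by positivity)).1 hε.2
  have e0 := hε.1
  have e3 : ε ≤ 1 / 40 ∧ A * ε ≤ 1 ∧ C * C0 * ε ≤ 1 := by
    have := mul_le_mul_of_nonneg_right (le_abs_self (C * C0)) e0.le
    have := mul_nonneg A0 e0.le
    have := mul_nonneg q0 e0.le
    refine ⟨?_, ?_, ?_⟩ <;> linarith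
  have e2 := inv_pos.2 e0
  have t1 := abs_nonneg T1
  have LT : L ≤ T := (le_self_pow₀ (by linarith) two_ne_zero).trans hT
  have T0 : 0 < T := by linarith
  have eT : 1 ≤ ε * T := (mul_inv_cancel₀ e0.ne').ge.trans
    (mul_le_mul_of_nonneg_left (by linarith) e0.le)
  have b := hb T (by linarith)
  refine ⟨be T, la T (be T) S, b.sm, fun x t => by simp [la, aa, pp, P354SA.e0, ← Prod.zero_eq_mk],
    fun x hx hy => ?_⟩
  let j : Cf n C0 C w c B := ⟨ε, T, L, δ, sc, sw, σ, S, g, be T, x, hw', ⟨e0, e3.1⟩,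
    by linarith [le_abs_self C], hT, ray, hx, hy, b, hB T⟩
  refine ⟨la_sa b.sm j.sa, b.rng _ hx, fun h => (b.lo _ h).1, b.hi _, fun h => ⟨b.bot _ h, ?_⟩,
    b.top _, fun h => ⟨la_ev _ _ T0 h, ?_⟩, fun h => ⟨(zb_val j h eT).1, (zb_val j h eT).2.1,
      (zb_val j h eT).2.2, ?_⟩⟩
  · rw [la, ch_one T0 (by linarith [hw'.2]), aa, pp, b.bot _ h]
    ring
  · rcases lt_or_ge x.2.1 (-2) with h' | h'
    · obtain ⟨m, i⟩ := hc' j h h'
      exact ⟨m.symm ▸ ⟨by norm_num, by norm_num⟩, 0, mul_nonneg (by linarith)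
        (inv_nonneg.2 (Real.sqrt_nonneg _)), i K (by linarith)⟩
    · obtain ⟨i, m⟩ := hd j h'
      have : x.2.1 ^ 2 ≤ 2 ^ 2 := sq_le_sq' h' (by linarith [hx.2, hw'.2])
      exact ⟨m w2.1 w2.2, Kd, le_trans (by linarith) (mul_le_mul_of_nonneg_left
        (jb_le (a := 3) (by linarith) (by norm_num)) (by linarith)), i K (by linarith)⟩
  rcases le_or_gt x.2.1 (-2 * T + 5 * w) with h' | h'
  · obtain ⟨i, m⟩ := ha j h'
    exact zb_fin j (i K (by linarith)) (by linarith [ray.par.2.1]) (by linarith [le_abs_self C])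
      (m ((le_abs_self T1).trans (by linarith : |T1| ≤ T)) e3.2.2) (by linarith) (.inl ⟨rfl, h'⟩)
  · obtain ⟨i, m⟩ := hb' j h' (by linarith : x.2.1 < -2)
    exact zb_fin j (i K (by linarith)) two_pos (by linarith) (m e3.2.1 eT) (by linarith) (.inr rfl)

theorem ini (_ : CO2) : INI := ini'

end Vale.Agent.P354IN
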