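import Vale.Agent.P354IN.Com

/-!
The initial values at the lower corner of the slab.
-/

open scoped ContDiff Topology
open Set Filter

noncomputable section

namespace Vale.Agent.P354IN

open Vale.Agent.P354n (R4)
open Vale.Agent.P354H (X3)
open Vale.Agent.P354XE (Tw)
open Vale.Agent.P354YQ (SA JB JD)
open Vale.Agent.P354SA Vale.Agent.P354SG

theorem _root_.Vale.Agent.P354YQ.SA.comp' {X F G : Type} [NormedAddCommGroup X] [NormedSpace ℝ X]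
    [NormedAddCommGroup F] [NormedSpace ℝ F] [NormedAddCommGroup G] [NormedSpace ℝ G] {f : X → F}
    {u : F → G} {z : X} (h : SA f z) (hu : SA u (f z)) : SA (fun w => u (f w)) z := hu.comp h

/-- The mean value inequality for jets along the rays. -/
theorem gron0 {X : Type} [NormedAddCommGroup X] [NormedSpace ℝ X] {F : R4 → ℝ} {s d : X → ℝ}
    {P : X → X3} {x : X} {k : ℕ} {b : ℝ} (hs : SA s x) (hd : SA d x) (hP : SA P x)
    (hF : ∀ ρ ∈ Icc (0 : ℝ) 1, SA F (s x + ρ * d x, P x))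
    (h : ∀ ρ ∈ Icc (0 : ℝ) 1, JB k (fun ξ => d ξ * dv e0 F (s ξ + ρ * d ξ, P ξ)) x b) :
    JB k (fun ξ => F (s ξ + d ξ, P ξ) - F (s ξ, P ξ)) x b := by
  have p : ∀ ρ : ℝ, SA (Prod.snd : ℝ × X → X) (ρ, x) := fun ρ => SA.of contDiff_snd
  have i : ∀ ρ : ℝ, SA (fun q : ℝ × X => (s q.2 + q.1 * d q.2, P q.2)) (ρ, x) := fun ρ =>
    ((SA.comp hs (p ρ)).add ((SA.of contDiff_fst).bil (ContinuousLinearMap.mul ℝ ℝ)
      (SA.comp hd (p ρ)))).prod (SA.comp hP (p ρ))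
  have sa : ∀ ρ ∈ Icc (0 : ℝ) 1, SA (fun q : ℝ × X => F (s q.2 + q.1 * d q.2, P q.2) -
      F (s q.2, P q.2)) (ρ, x) := fun ρ m => ((i ρ).comp' (hF ρ m)).sub ((p ρ).comp'
    (u := fun ξ => F (s ξ, P ξ)) ((hs.prod hP).comp' (by simpa using hF 0 ⟨le_rfl, zero_le_one⟩)))
  have := P354YQ.gron_jet (k := k) (L := 0) (a := 0) (b := b) le_rfl
    (h 0 ⟨le_rfl, zero_le_one⟩).nonneg sa (fun ρ m _ _ => ((h ρ m).congr ?_).mono (by simp))
    (((JB.const (0 : ℝ)).mono norm_zero.le).congr (.of_forall fun ξ => by simp)) 1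
    ⟨zero_le_one, le_rfl⟩
  · simpa using this
  have c : ContinuousAt (fun ξ : X => (ρ, ξ)) x := by fun_prop
  filter_upwards [c.eventually (sa ρ m).ev, ((i ρ).cont.comp c).eventually (hF ρ m).ev] with ξ a e
  have d1 := a.diff.hasFDerivAt.comp_hasDerivAt ρ ((hasDerivAt_id ρ).prodMk (hasDerivAt_const ρ ξ))
  have d2 := (e.diff.hasFDerivAt.comp_hasDerivAt ρ (((((hasDerivAt_id ρ).mul_const
    (d ξ)).const_add (s ξ))).prodMk (hasDerivAt_const ρ (P ξ)))).sub_const (F (s ξ, P ξ))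
  refine (d1.unique d2).trans ?_
  rw [show ((1 * d ξ, 0) : R4) = d ξ • e0 by simp [e0, Prod.ext_iff], map_smul]
  rfl

variable {n : ℕ} {C0 C w c B : ℝ}

/-- The bounds of the metric near the slice. -/
theorem Cf.rp (j : Cf n C0 C w c B) {s : ℝ} (h1 : j.S (pp j.b j.x) - 1 ≤ s)
    (h2 : s ≤ j.S (pp j.b j.x)) : (s, pp j.b j.x) ∈ RD w j.δ j.S ∧ ∃ r m rc, j.T ≤ r ∧
      m ≤ 7 * j.T⁻¹ ∧ j.T ≤ rc ∧ Rp (n + 4) C0 C r m j.L rc j.g (s, pp j.b j.x) := by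
  obtain ⟨-, -, δ0, -, sc, sw, σ⟩ := j.ray.par
  have a := abs_le.1 (j.ray.bot _ j.wn).1
  have T1 : 42 ≤ j.T := j.num.1.trans j.num.2.1
  have b : 5 / 3 * j.T ≤ s - (pp j.b j.x).1 := by
    have := mul_le_mul_of_nonneg_right j.hε.2 j.T0.le
    linarith [j.wn.1.2, j.hw.2, a.1]
  have m : (s, pp j.b j.x) ∈ RD w j.δ j.S := ⟨j.wn, by linarith, by linarith⟩
  have k := j.ray.pt _ m
  rw [if_pos b] at k
  refine ⟨m, _, _, _, ?_, ?_, ?_, k⟩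
  · linarith [(jb_ge (s - (pp j.b j.x).1)).1]
  · have q := jb_ge (s - (pp j.b j.x).1 - j.sw)
    have e1 : (jb (s - (pp j.b j.x).1))⁻¹ ≤ j.T⁻¹ :=
      inv_anti₀ j.T0 (by linarith [(jb_ge (s - (pp j.b j.x).1)).1])
    have e2 := Real.rpow_le_rpow_of_exponent_le q.2 (neg_le_neg σ.1.le)
    rw [Real.rpow_neg_one] at e2
    have e3 : (jb (s - (pp j.b j.x).1 - j.sw))⁻¹ ≤ (j.T / 6)⁻¹ :=
      inv_anti₀ (by linarith) (by linarith [q.1, sw.2])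
    rw [inv_div, div_eq_mul_inv] at e3
    unfold mm
    linarith
  · linarith [(jb_ge (s - (pp j.b j.x).1 - j.sc)).1, sc.2, j.hL, j.num.2.1]

variable {J : Type} {μ : J → ℝ}

theorem OD.re {J' X F : Type} [NormedAddCommGroup X] [NormedSpace ℝ X] [NormedAddCommGroup F]
    [NormedSpace ℝ F] {k : ℕ} {f : J → X → F} (h : OD k 0 f μ) (π : J' → J) :
    OD k 0 (fun j => f (π j)) fun j => μ (π j) :=
  ⟨fun _ => h.1 _, h.2.imp fun _ c => ⟨c.1, fun _ => c.2 _⟩⟩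

section
variable (φ : J → Cf n C0 C w c B) {κ : J → ℝ}
  (h1 : OD (n + 2) 0 (fun j ξ => (φ j).T / (φ j).L * (φ j).b (xx φ κ j ξ).2.1) 1)
include h1

theorem ob_cl {F s : J → R4 → ℝ} {A : ℝ} (hs : OD (n + 2) 0 s fun j => (φ j).L)
    (hμ : ∀ j, 0 ≤ μ j)
    (h : ∀ j, Cl (n + 4) (φ j).L 1 (F j) (s j 0, pp (φ j).b (φ j).x) (A * μ j)) :
    OB (n + 2) 0 (fun j ξ => F j (s j ξ, pp (φ j).b (xx φ κ j ξ))) μ := by
  have o := fun _ : J => zero_le_one' ℝ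
  have i := (((hs.cen.od.cs (fun j => (φ j).L⁻¹) fun j => inv_nonneg.2 (φ j).L0.le).wt 1 o
    fun j => by simp [(φ j).L0.ne']).prod (((od_y φ h1).cs (fun j => (φ j).L / (φ j).T)
      fun j => (φ j).num.2.2.2.2.2.1.le).wt 1 o fun j => by simpa using (φ j).num.2.2.2.2.2.2))
  refine ((((OB.of (x := 0) hμ h).ord (by omega)).pt fun j => by
    simp [yy, xx0, Prod.ext_iff]).comp i).congr' fun j ξ => congrArg _ (Prod.ext ?_ ?_)
  · simp [dl, mul_sub, (φ j).L0.ne']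
  · simp only [dl, Prod.snd_add, one_smul, yy_eq]

theorem ob_df {F d : J → R4 → ℝ} {A : ℝ} (hd : OB (n + 2) 0 d 1) (hμ : ∀ j, 0 ≤ μ j)
    (h : ∀ j, ∀ ρ ∈ Icc (0 : ℝ) 1,
      SA (F j) ((φ j).S (pp (φ j).b (φ j).x) + ρ * d j 0, pp (φ j).b (φ j).x) ∧
      Cl (n + 4) (φ j).L 1 (dv e0 (F j)) ((φ j).S (pp (φ j).b (φ j).x) + ρ * d j 0,
        pp (φ j).b (φ j).x) (A * μ j)) :
    OB (n + 2) 0 (fun j ξ => F j ((φ j).S (pp (φ j).b (xx φ κ j ξ)) + d j ξ,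
      pp (φ j).b (xx φ κ j ξ)) - F j ((φ j).S (pp (φ j).b (xx φ κ j ξ)),
      pp (φ j).b (xx φ κ j ξ))) μ := by
  have hs : OD (n + 2) 0 (fun (q : J × Icc (0 : ℝ) 1) ξ => (φ q.1).S (pp (φ q.1).b
      (xx φ κ q.1 ξ)) + q.2 * d q.1 ξ) fun q => (φ q.1).L :=
    ((od_S φ h1).re Prod.fst).add (((hd.od.re Prod.fst).cs (fun q : J × Icc (0 : ℝ) 1 => q.2.1)
      fun q => q.2.2.1).wt 1 (fun q => (φ q.1).L0.le) fun q => by
        simp only [Pi.mul_apply, Pi.one_apply]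
        linarith [q.2.2.2, (φ q.1).num.1])
  have a := ob_cl (fun q : J × Icc (0 : ℝ) 1 => φ q.1) (κ := fun q => κ q.1) (h1.re Prod.fst)
    (F := fun q => dv e0 (F q.1)) hs (fun q => hμ q.1) fun q => by
      simpa only [Pi.zero_apply, xx0] using (h q.1 q.2 q.2.2).2
  obtain ⟨D, -, hD⟩ := hd.2
  obtain ⟨K, -, hK⟩ := ((OB.of1 (x := 0) fun q : J × Icc (0 : ℝ) 1 =>
    (hD q.1).mono (mul_one D).le).mul1 a).2
  obtain ⟨_, -, sS⟩ := (od_S φ h1).2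
  refine .of (C := K) hμ fun j => gron0 (sS j).sm (hD j).sm (SA.of ((pp_cd (φ j).hb.sm).comp ?_))
    (fun ρ m => by simpa only [Pi.zero_apply, xx0] using (h j ρ m).1) fun ρ m => hK (j, ⟨ρ, m⟩)
  unfold xx ax
  fun_prop

end

theorem ob_lc {k : ℕ} {f : J → R4 → R2} (h : OB k 0 f μ) (a : Fin 2) :
    OB k 0 (fun j ξ => lc a (f j ξ)) μ := by
  fin_cases a
  exacts [h.clm (.fst ℝ ℝ ℝ), h.clm (.snd ℝ ℝ ℝ)]

theorem ob_s2 {k : ℕ} {f : Fin 2 → J → R4 → ℝ} (h : ∀ a, OB k 0 (f a) μ) :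
    OB k 0 (fun j ξ => ∑ a, f a j ξ) μ :=
  ((h 0).add (h 1)).congr' fun _ _ => Fin.sum_univ_two _

theorem ob_db (φ : J → Cf n C0 C w c B) {u : J → R4 → ℝ} (h : OD (n + 2) 0 u 1) :
    OB (n + 2) 0 (fun j ξ => deriv (φ j).b (u j ξ)) 1 :=
  (ob_dv (OD.of1 fun j => (φ j).hj _)).comp h

/-- The distance to the slice, and the two errors. -/
def dd (T : ℝ) (b : ℝ → ℝ) (x : R4) : ℝ := -x.2.1 - 2 * T - b x.2.1
def ea (T : ℝ) (b : ℝ → ℝ) (S : X3 → ℝ) (g : Tw) (x : R4) : ℝ :=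
  a0 g (S (pp b x) + dd T b x, pp b x) - a0 g (S (pp b x), pp b x) + ∑ a,
    (a1 g a (S (pp b x) + dd T b x, pp b x) - a1 g a (S (pp b x), pp b x)) • lc a (lam S (pp b x))
def eb (T : ℝ) (b : ℝ → ℝ) (S : X3 → ℝ) (g : Tw) (x : R4) : ℝ := ∑ a, ∑ a',
  (a2 g a a' (S (pp b x) + dd T b x, pp b x) • lc a (lam S (pp b x))) • lc a' (lam S (pp b x))

theorem mu_a {T : ℝ} {b : ℝ → ℝ} {S : X3 → ℝ} {g : Tw} {x : R4} (hb : ContDiff ℝ ∞ b)
    (hS : DifferentiableAt ℝ S (pp b x)) (hT : 0 < T) (e : x.2.1 < -2 * T + T / 20) :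
    mu0 g b (la T b S) x =
      -1 + deriv b x.2.1 * (trv S g (S (pp b x), pp b x) - 1 - ea T b S g x - eb T b S g x) := by
  have c1 := ch_one hT e.le
  have c2 : deriv (ch T) x.2.1 = 0 := (EventuallyEq.deriv_eq (f := fun _ => 1)
    ((eventually_lt_nhds e).mono fun t ht => ch_one hT ht.le)).trans (deriv_const _ _)
  have c3 : la T b S x = S (pp b x) + dd T b x := by
    simp only [la, aa, dd, c1]
    ring
  rw [mu_eq hb hS, c1, c2, c3, trv_eq]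
  simp only [ea, eb, Hm, Fin.sum_univ_two, smul_eq_mul, one_smul]
  ring

/-- **The lower corner.** -/
theorem case_a (n : ℕ) (C0 C w c B : ℝ) : ∃ K0 T1, 1 ≤ K0 ∧ ∀ j : Cf n C0 C w c B,
    j.x.2.1 ≤ -2 * j.T + 5 * w → (∀ K ≥ K0, Ij (n + 2) K j.L (j.T / j.L) (j.T / j.L)⁻¹ K0 j.g j.b
      (la j.T j.b j.S) j.x) ∧
      (T1 ≤ j.T → C * C0 * j.ε ≤ 1 → mu0 j.g j.b (la j.T j.b j.S) j.x ≤ -(2 * C)⁻¹) := by
  rcases lt_or_ge C 1 with hC | hC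
  · exact ⟨1, 0, le_rfl, fun j => absurd j.ray.par.2.1 hC.not_ge⟩
  obtain ⟨A, A0, hA⟩ := Cq.pc_a2 (n + 4) hC
  let φ : {j : Cf n C0 C w c B // j.x.2.1 ≤ -2 * j.T + 5 * w} → Cf n C0 C w c B := Subtype.val
  let κ := fun j => ((φ j).T / (φ j).L)⁻¹
  have o := fun _ : {j : Cf n C0 C w c B // j.x.2.1 ≤ -2 * j.T + 5 * w} => zero_le_one' ℝ
  have k0 : ∀ j, 0 ≤ κ j := fun j => inv_nonneg.2 (zero_le_one.trans (φ j).num.2.2.1)
  have k1 : ∀ j, κ j ≤ 1 := fun j => inv_le_one_of_one_le₀ (φ j).num.2.2.1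
  have t0 : ∀ j, 0 ≤ (φ j).T⁻¹ := fun j => inv_nonneg.2 (φ j).T0.le
  have u : ∀ k, OD k 0 (fun j ξ => (xx φ κ j ξ).2.1) κ := fun k => od_u _ _ k0
  have u1 : ∀ k, OD k 0 (fun j ξ => (xx φ κ j ξ).2.1) 1 := fun k => (u k).wt 1 o fun j => by
    simpa using k1 j
  have h1 : OD (n + 2) 0 (fun j ξ => (φ j).T / (φ j).L * (φ j).b (xx φ κ j ξ).2.1) 1 :=
    (((OD.of1 fun j => ((φ j).hj _).ord (by omega)).slow (u1 _) (u _)).cs
      (fun j => (φ j).T / (φ j).L) fun j => zero_le_one.trans (φ j).num.2.2.1).wt 1 o fun j =>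
      (mul_inv_cancel₀ (zero_lt_one.trans_le (φ j).num.2.2.1).ne').trans_le (by simp)
  let d := fun j ξ => dd (φ j).T (φ j).b (xx φ κ j ξ)
  have d0 : ∀ j, -1 ≤ d j 0 ∧ d j 0 ≤ 0 := fun j => by
    simp only [d, dd, xx0]
    exact ⟨by linarith [((φ j).hb.a _ j.2).2, (φ j).hw.2], sub_nonpos.2 ((φ j).hb.lo _ (by
      linarith [j.2, (φ j).hw.2, (φ j).num.1, (φ j).num.2.1])).2⟩
  have hd : OB (n + 2) 0 d 1 := ((((OD.const (fun j => -(2 * (φ j).T)) o).sub (u1 _)).sub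
    (od_b φ h1)).congr' fun j ξ => by simp only [d, dd]; ring).ob 1 fun j =>
      (abs_le.2 ⟨(d0 j).1, (d0 j).2.trans zero_le_one⟩).trans (by simp)
  have R := fun j ρ (m : ρ ∈ Icc (0 : ℝ) 1) => ((φ j).rp
    (s := (φ j).S (pp (φ j).b (φ j).x) + ρ * d j 0) (by nlinarith [d0 j, m.1, m.2])
    (by nlinarith [d0 j, m.1, m.2])).2
  have lm := fun a => ob_lc (ob_lam φ h1) a
  have E0 := ob_df φ h1 (F := fun j => a0 (φ j).g) (A := C * 7) hd t0 fun j ρ m => by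
    obtain ⟨r, m, rc, -, a, -, k⟩ := R j ρ m
    exact ⟨Cq.cl_sa k.one.2.1 (φ j).L0.ne', k.d0.mono (by nlinarith)⟩
  have E1 := ob_s2 fun a => ((ob_df φ h1 (F := fun j => a1 (φ j).g a) (A := C * 7) hd
    (fun j => mul_nonneg (t0 j) (t0 j)) fun j ρ m => by
      obtain ⟨r, m, rc, e, a', -, k⟩ := R j ρ m
      refine ⟨Cq.cl_sa (k.one.2.2.1 a) (φ j).L0.ne', (k.d1 a).mono ?_⟩
      rw [div_eq_mul_inv, ← mul_assoc]
      exact mul_le_mul (by nlinarith) (inv_anti₀ (φ j).T0 e) (inv_nonneg.2 ((φ j).T0.le.trans e))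
        (mul_nonneg (by linarith) (t0 j))).smul (lm a)).wt 1 t0 fun j => by simp [(φ j).T0.ne']
  have E2 := ob_s2 fun a => ob_s2 fun a' => (((ob_cl φ h1 (F := fun j => a2 (φ j).g a a') (A := A)
    ((od_S φ h1).add (hd.od.wt 1 (fun j => (φ j).L0.le) fun j => by
      simp only [Pi.one_apply]; linarith [(φ j).num.1])) (fun j => mul_nonneg (t0 j) (t0 j))
    fun j => by
      obtain ⟨r, m, rc, e, -, -, k⟩ := R j 1 ⟨zero_le_one, le_rfl⟩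
      rw [one_mul] at k
      rw [xx0]
      refine (hA _ _ _ _ _ _ _ k (φ j).L0.ne' ((φ j).T0.trans_le e) a a').v.mono ?_
      rw [div_eq_mul_inv, ← mul_inv, ← sq]
      exact mul_le_mul_of_nonneg_left (inv_anti₀ (pow_pos (φ j).T0 2)
        (pow_le_pow_left₀ (φ j).T0.le e 2)) A0).smul (lm a)).smul (lm a')).wt 1 o fun j => by
      simp [(φ j).T0.ne']
  have tv := ob_tr φ h1 (F := fun j y => trv (φ j).S (φ j).g ((φ j).S y, y)) (OB.of1 fun j =>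
    ((φ j).ray.bot _ (φ j).wn).2.2.2.ord (by omega))
  have t1 : ∀ j, (φ j).T⁻¹ ≤ 1 * 1 := fun j => (inv_le_one_of_one_le₀ (by
    linarith [(φ j).num.1, (φ j).num.2.1])).trans_eq (mul_one 1).symm
  have E : OB (n + 2) 0 (fun j ξ => ea (φ j).T (φ j).b (φ j).S (φ j).g (xx φ κ j ξ))
    fun j => (φ j).T⁻¹ := E0.add E1
  have lt : ∀ j, (φ j).x.2.1 < -2 * (φ j).T + (φ j).T / 20 := fun j => by
    linarith [j.2, (φ j).hw.2, (φ j).num.1, (φ j).num.2.1]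
  obtain ⟨K0, K1, hK⟩ := ij_B φ h1 (fun j => ⟨le_rfl, (k1 j).trans (by linarith [(φ j).num.1])⟩)
    (((OB.cst (-1 : ℝ)).add ((ob_db φ (u1 _)).mul1 (((tv.sub (OB.cst 1)).sub (E.wt 1 o t1)).sub
      E2))).congr fun j => by
      filter_upwards [(ax_td _ (κ j) _).eventually ((φ j).ev.and
        (continuous_snd.fst.continuousAt.eventually (eventually_lt_nhds (lt j))))] with ξ h
      exact mu_a (φ j).hb.sm h.1 (φ j).T0 h.2)
  obtain ⟨D, D0, hD⟩ := E.2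
  refine ⟨K0, 4 * C * D, K1, fun j h => ⟨hK ⟨j, h⟩, fun hT hε => ?_⟩⟩
  have C' : 0 < C := by linarith
  have a : |ea j.T j.b j.S j.g j.x| ≤ (4 * C)⁻¹ := by
    have := (hD ⟨j, h⟩).zero
    simp only [Pi.zero_apply, xx0] at this
    refine this.trans (show D * j.T⁻¹ ≤ _ from ?_)
    rw [← div_eq_mul_inv, div_le_iff₀ j.T0, inv_mul_eq_div, le_div_iff₀ (by linarith)]
    linarith
  have b : |eb j.T j.b j.S j.g j.x| ≤ (4 * C)⁻¹ := by
    obtain ⟨r, m, rc, -, -, e, k⟩ := R ⟨j, h⟩ 1 ⟨zero_le_one, le_rfl⟩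
    simp only [d, xx0, one_mul] at k
    have c0 := j.ray.par.1
    have t : ∀ a a', |(a2 j.g a a' (j.S (pp j.b j.x) + dd j.T j.b j.x, pp j.b j.x) •
        lc a (lam j.S (pp j.b j.x))) • lc a' (lam j.S (pp j.b j.x))| ≤ C0 * j.ε ^ 2 := fun a a' => by
      have := j.T0
      have := j.hε.1
      rw [smul_eq_mul, smul_eq_mul, abs_mul, abs_mul]
      refine (mul_le_mul (mul_le_mul ((k.sharp.2.2 a a').2.trans (div_le_div_of_nonneg_left
        (by linarith) (pow_pos j.T0 2) (pow_le_pow_left₀ j.T0.le e 2))) (j.lam_le a) (abs_nonneg _)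
        (by positivity)) (j.lam_le a') (abs_nonneg _) (by positivity)).trans_eq ?_
      field_simp
    have : C0 * j.ε ^ 2 * (4 * C) ≤ 1 / 10 := by nlinarith [j.hε.1, j.hε.2]
    rw [← one_div, le_div_iff₀ (by linarith)]
    simp only [eb, Fin.sum_univ_two]
    have := abs_le.1 (t 0 0)
    have := abs_le.1 (t 0 1)
    have := abs_le.1 (t 1 0)
    have := abs_le.1 (t 1 1)
    refine (mul_le_mul_of_nonneg_right (show _ ≤ 4 * (C0 * j.ε ^ 2) from abs_le.2 ⟨by linarith,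
      by linarith⟩) (by linarith)).trans (by linarith)
  have t := (j.ray.tr _ (j.rp (by linarith) le_rfl).1 (by linarith [j.ray.par.2.2.1])).1
  have p := (j.hb.a _ h).1
  have q : C⁻¹ ≤ 1 := inv_le_one_of_one_le₀ hC
  have q0 : 0 < C⁻¹ := inv_pos.2 C'
  rw [mu_a j.hb.sm j.ev.self_of_nhds j.T0 (lt ⟨j, h⟩), mul_inv]
  rw [mul_inv] at a b
  nlinarith [abs_le.1 a, abs_le.1 b, p.1, p.2]

end Vale.Agent.P354IN
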